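import Mathlib
import Crest.Prelude.Def_QueryComplexity

/-!
A small calculus of quantum query programs.
-/

set_option autoImplicit false
set_option linter.unusedSectionVars false
set_option linter.unusedSimpArgs false

namespace Crest.Agent.H5.QQ

open Matrix Finset Complex Crest.MathPhysics.Query

variable {ι : Type} {W W' C A B : Type}

section QU
variable [Fintype W] [DecidableEq W] [Fintype W'] [DecidableEq W'] [Fintype C] [DecidableEq C]

/-- phase oracle -/
def OO (q : W → Option ι) (x : ι → Bool) : Matrix W W ℂ :=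
  diagonal fun w => if (q w).any x then -1 else 1

/-- families of unitaries implementable with `T` queries -/
def QU : ℕ → ((ι → Bool) → Matrix W W ℂ) → Prop
  | 0, V => ∃ U ∈ unitaryGroup W ℂ, ∀ x, V x = U
  | T + 1, V => ∃ U ∈ unitaryGroup W ℂ, ∃ q V', QU T V' ∧ ∀ x, V x = U * OO q x * V' x

lemma sign_unit (d : W → Bool) :
    (diagonal fun w => if d w then -1 else 1 : Matrix W W ℂ) ∈ unitaryGroup W ℂ := by
  rw [mem_unitaryGroup_iff, star_eq_conjTranspose, diagonal_conjTranspose, diagonal_mul_diagonal,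
    ← diagonal_one]
  congr 1; ext w; by_cases h : d w <;> simp [h]

lemma QU.unit : ∀ {T : ℕ} {V : (ι → Bool) → Matrix W W ℂ}, QU T V → ∀ x, V x ∈ unitaryGroup W ℂ
  | 0, _, ⟨_, hU, h⟩, x => h x ▸ hU
  | _ + 1, _, ⟨_, hU, _, _, h1, h⟩, x => h x ▸ mul_mem (mul_mem hU (sign_unit _)) (h1.unit x)

lemma QU.const {U : Matrix W W ℂ} (hU : U ∈ unitaryGroup W ℂ) : QU 0 fun _ : ι → Bool => U :=
  ⟨U, hU, fun _ => rfl⟩

lemma QU.lmul {U : Matrix W W ℂ} (hU : U ∈ unitaryGroup W ℂ) :
    ∀ {T : ℕ} {V : (ι → Bool) → Matrix W W ℂ}, QU T V → QU T fun x => U * V x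
  | 0, _, ⟨U', hU', h⟩ => ⟨U * U', mul_mem hU hU', fun x => by simp only [h]⟩
  | _ + 1, _, ⟨U', hU', q, V', h1, h⟩ =>
    ⟨U * U', mul_mem hU hU', q, V', h1, fun x => by simp only [h, mul_assoc]⟩

lemma QU.mul {t : ℕ} {V' : (ι → Bool) → Matrix W W ℂ} (h' : QU t V') :
    ∀ {s : ℕ} {V : (ι → Bool) → Matrix W W ℂ}, QU s V → QU (s + t) fun x => V x * V' x
  | 0, _, ⟨U, hU, h⟩ => by simpa only [h, zero_add] using h'.lmul hU
  | s + 1, _, ⟨U, hU, q, _, h1, h⟩ => by
    rw [Nat.add_right_comm]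
    exact ⟨U, hU, q, _, h'.mul h1, fun x => by simp only [h, mul_assoc]⟩

lemma QU.rmul {U : Matrix W W ℂ} (hU : U ∈ unitaryGroup W ℂ) {T : ℕ}
    {V : (ι → Bool) → Matrix W W ℂ} (h : QU T V) : QU T fun x => V x * U := (QU.const hU).mul h

lemma QU.oracle (q : W → Option ι) : QU 1 (OO q) :=
  ⟨1, one_mem _, q, _, QU.const (one_mem _), fun x => by simp⟩

lemma QU.star : ∀ {T : ℕ} {V : (ι → Bool) → Matrix W W ℂ}, QU T V → QU T fun x => star (V x)
  | 0, _, ⟨U, hU, h⟩ => ⟨_, Unitary.star_mem hU, fun x => by simp only [h]⟩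
  | _ + 1, _, ⟨U, hU, q, V', h1, h⟩ => by
    have e : ∀ x, Star.star (OO q x) = OO q x := fun x => by
      rw [star_eq_conjTranspose, OO, diagonal_conjTranspose]
      congr 1; ext w; by_cases h : (q w).any x <;> simp [h]
    simpa only [h, star_mul, e] using ((QU.oracle q).rmul (Unitary.star_mem hU)).mul h1.star

lemma QU.mono {T T' : ℕ} {V : (ι → Bool) → Matrix W W ℂ} (h : QU T V) (hT : T ≤ T') : QU T' V := by
  induction hT with
  | refl => exact h
  | step _ ih => exact ⟨1, one_mem _, fun _ => none, V, ih, fun x => by simp [OO]⟩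

/-- controlled family -/
def ctrl (σ : W' ≃ W × C) (M : C → Matrix W W ℂ) : Matrix W' W' ℂ :=
  (blockDiagonal M).submatrix σ σ

lemma ctrl_mul (σ : W' ≃ W × C) (M N : C → Matrix W W ℂ) :
    ctrl σ (fun c => M c * N c) = ctrl σ M * ctrl σ N := by
  simp only [ctrl, blockDiagonal_mul, submatrix_mul_equiv]

lemma ctrl_unit (σ : W' ≃ W × C) {M : C → Matrix W W ℂ} (h : ∀ c, M c ∈ unitaryGroup W ℂ) :
    ctrl σ M ∈ unitaryGroup W' ℂ := by
  simp only [mem_unitaryGroup_iff, star_eq_conjTranspose] at h ⊢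
  rw [show (ctrl σ M)ᴴ = ctrl σ fun c => (M c)ᴴ by
    rw [ctrl, conjTranspose_submatrix, blockDiagonal_conjTranspose, ctrl], ← ctrl_mul]
  simp only [h]
  exact (congrArg (submatrix · σ σ) blockDiagonal_one).trans (submatrix_one_equiv σ)

lemma QU.ctrl (σ : W' ≃ W × C) : ∀ {T : ℕ} {V : C → (ι → Bool) → Matrix W W ℂ},
    (∀ c, QU T (V c)) → QU T fun x => ctrl σ fun c => V c x
  | 0, _, h => by
    choose U hU h using h
    exact ⟨_, ctrl_unit σ hU, fun x => by simp only [h]⟩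
  | _ + 1, _, h => by
    choose U hU q V' h1 h using h
    refine ⟨_, ctrl_unit σ hU, fun w => q (σ w).2 (σ w).1, _, QU.ctrl σ h1, fun x => ?_⟩
    simp only [h, ctrl_mul]
    congr 2
    simp only [QQ.ctrl, OO, blockDiagonal_diagonal, submatrix_diagonal_equiv]
    rfl

omit [DecidableEq W'] in
lemma unit_col [DecidableEq W'] {U : Matrix W' W' ℂ} (hU : U ∈ unitaryGroup W' ℂ) (w0 : W') :
    ∑ w, normSq (U w w0) = 1 := by
  have := congrFun (congrFun (mem_unitaryGroup_iff'.1 hU) w0) w0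
  simp only [mul_apply, star_apply, one_apply_eq, star_def, ← normSq_eq_conj_mul_self] at this
  exact_mod_cast this

lemma exists_unit (ψ : W → ℝ) (hψ : ∑ w, ψ w ^ 2 = 1) (w0 : W) :
    ∃ U ∈ unitaryGroup W ℂ, ∀ w, U w w0 = ψ w := by
  by_cases h : ψ w0 = 1
  · refine ⟨1, one_mem _, fun w => ?_⟩
    rw [← add_sum_erase _ _ (mem_univ w0), h, one_pow, add_eq_left,
      sum_eq_zero_iff_of_nonneg fun _ _ => sq_nonneg _] at hψ
    by_cases hw : w = w0
    · subst hw; simp [h]
    · simp [hw, pow_eq_zero_iff two_ne_zero |>.1 (hψ w (by simp [hw]))]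
  · have h' : (1 - ψ w0 : ℂ) ≠ 0 := by exact_mod_cast sub_ne_zero.2 (Ne.symm h)
    set v : W → ℂ := fun w => (if w = w0 then 1 else 0) - ψ w with hv
    have vv : v ⬝ᵥ v = 2 * (1 - ψ w0) := by
      have : ∑ w, (ψ w : ℂ) ^ 2 = 1 := by exact_mod_cast hψ
      simp only [dotProduct, hv, ← sq, sub_sq, sum_add_distrib, sum_sub_distrib, this]
      simp; ring
    refine ⟨1 - (1 - ψ w0 : ℂ)⁻¹ • vecMulVec v v, ?_, fun w => ?_⟩
    · have e : star (1 - (1 - ψ w0 : ℂ)⁻¹ • vecMulVec v v) =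
          1 - (1 - ψ w0 : ℂ)⁻¹ • vecMulVec v v := by
        ext i j
        simp [hv, vecMulVec_apply, one_apply, eq_comm, mul_comm, apply_ite]
      rw [mem_unitaryGroup_iff, e]
      rw [mul_sub, sub_mul, sub_mul, smul_mul_smul_comm, vecMulVec_mul_vecMulVec,
        vv, vecMulVec_smul, smul_smul, mul_one, mul_one, one_mul, show (1 - ψ w0 : ℂ)⁻¹ * (1 - ψ w0 : ℂ)⁻¹ * (2 * (1 - ψ w0)) = 2 * (1 - ψ w0 : ℂ)⁻¹ by
        field_simp]
      module
    · simp [hv, vecMulVec_apply, one_apply, mul_left_comm, h']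

end QU

/-- realisation of a family of distributions on a given work space -/
def Rea (T : ℕ) (μ : (ι → Bool) → (A → ℝ) → ℝ) (W : Type) [Fintype W] [DecidableEq W] (w0 : W) :
    Prop :=
  ∃ (V : (ι → Bool) → Matrix W W ℂ) (out : W → A), QU T V ∧
    ∀ x f, μ x f = ∑ w, normSq (V x w w0) * f (out w)

/-- the family of distributions `μ` can be sampled with `T` queries -/
def Samp (T : ℕ) (μ : (ι → Bool) → (A → ℝ) → ℝ) : Prop :=
  ∃ (W : Type) (_ : Fintype W) (_ : DecidableEq W) (w0 : W), Rea T μ W w0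

variable {T T' : ℕ} {μ : (ι → Bool) → (A → ℝ) → ℝ}

lemma Samp.mono (h : Samp T μ) (hT : T ≤ T') : Samp T' μ :=
  let ⟨W, i1, i2, w0, V, out, h1, h2⟩ := h
  ⟨W, i1, i2, w0, V, out, h1.mono hT, h2⟩

lemma Samp.map (h : Samp T μ) (g : A → B) : Samp T fun x f => μ x fun a => f (g a) :=
  let ⟨W, i1, i2, w0, V, out, h1, h2⟩ := h
  ⟨W, i1, i2, w0, V, g ∘ out, h1, fun _ _ => h2 _ _⟩

lemma Samp.pure (a : A) : Samp 0 fun (_ : ι → Bool) f => f a :=
  ⟨Unit, inferInstance, inferInstance, (), _, fun _ => a, QU.const (one_mem _), by simp⟩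

lemma Rea.ext [Fintype W] [DecidableEq W] [Fintype W'] [DecidableEq W'] [Fintype C] [DecidableEq C]
    (σ : W' ≃ W × C) (w0 : W') (h : Rea T μ W (σ w0).1) : Rea T μ W' w0 := by
  obtain ⟨V, out, h1, h2⟩ := h
  refine ⟨_, fun w => out (σ w).1, QU.ctrl σ fun _ => h1, fun x f => ?_⟩
  rw [h2, ← σ.symm.sum_comp]
  simp [ctrl, blockDiagonal_apply, Fintype.sum_prod_type, apply_ite normSq]

lemma Samp.bind (h : Samp T μ) {ν : A → (ι → Bool) → (B → ℝ) → ℝ} (h' : ∀ a, Samp T' (ν a)) :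
    Samp (T + T') fun x f => μ x fun a => ν a x f := by
  obtain ⟨W, i1, i2, w0, V, out, h1, h2⟩ := h
  choose W2 j1 j2 u0 h3 using fun w => h' (out w)
  have h4 : ∀ w, Rea T' (ν (out w)) (∀ w, W2 w) u0 := fun w =>
    Rea.ext (Equiv.piSplitAt w W2) u0 (h3 w)
  choose V2 out2 h5 h6 using h4
  refine ⟨(∀ w, W2 w) × W, inferInstance, inferInstance, (u0, w0), _, fun p => out2 p.2 p.1,
    add_comm T T' ▸ (QU.ctrl (Equiv.prodComm _ _) fun _ => h1).mul (QU.ctrl (Equiv.refl _) h5),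
    fun x f => ?_⟩
  simp only [h2, h6, mul_sum]
  rw [sum_comm, Fintype.sum_prod_type]
  refine sum_congr rfl fun u _ => sum_congr rfl fun w _ => ?_
  simp [ctrl, mul_apply, blockDiagonal_apply, Fintype.sum_prod_type]
  ring

/-- one round of amplitude amplification -/
noncomputable def amp (g : A → Bool) (E : (A → ℝ) → ℝ) (f : A → ℝ) : ℝ :=
  E fun a => (if g a then (3 - 4 * E fun a => if g a then 1 else 0) ^ 2
    else (1 - 4 * E fun a => if g a then 1 else 0) ^ 2) * f a

lemma Samp.amp (h : Samp T μ) (g : A → Bool) : Samp (3 * T) fun x => amp g (μ x) := by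
  obtain ⟨W, i1, i2, w0, V, out, h1, h2⟩ := h
  refine ⟨W, i1, i2, w0, _, out, (show T + T + T = 3 * T by ring) ▸ (h1.lmul
    (sign_unit fun w => g (out w))).mul (h1.star.mul (h1.rmul
      (sign_unit fun w => decide (w = w0)))), fun x f => ?_⟩
  have e1 : V x * (diagonal fun w => if decide (w = w0) then -1 else 1) * star (V x) =
      1 - of fun w w' => 2 * V x w w0 * (starRingEnd ℂ) (V x w' w0) := by
    rw [← mem_unitaryGroup_iff.1 (h1.unit x)]
    ext w w'
    have (u : W) : (if decide (u = w0) then -1 else 1 : ℂ) = 1 - if u = w0 then 2 else 0 := by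
      by_cases h : u = w0 <;> simp [h]; norm_num
    rw [mul_apply]
    simp only [mul_diagonal, this, mul_sub, sub_mul, sum_sub_distrib]
    simp [mul_apply, mul_comm]
  simp only [QQ.amp, h2, e1]
  set p := ∑ w, normSq (V x w w0) * if g (out w) then 1 else 0 with hp
  have e2 : ∑ w, (starRingEnd ℂ) (V x w w0) * ((if g (out w) then -1 else 1) * V x w w0) =
      (1 - 2 * p : ℝ) := by
    rw [show 1 - 2 * p = ∑ w, normSq (V x w w0) - 2 * p by rw [unit_col (h1.unit x) w0], hp,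
      mul_sum, ← sum_sub_distrib, ofReal_sum]
    refine sum_congr rfl fun w _ => ?_
    rw [mul_left_comm, ← normSq_eq_conj_mul_self]
    split_ifs <;> simp; ring
  refine sum_congr rfl fun w _ => ?_
  rw [sub_mul, one_mul, Matrix.sub_apply, Matrix.mul_apply (M := of _)]
  simp only [diagonal_mul, of_apply, mul_assoc, ← mul_sum, e2]
  rw [← mul_assoc, ← mul_assoc, mul_comm _ (V x w w0), mul_comm _ (V x w w0), mul_assoc (V x w w0),
    ← mul_sub, map_mul]
  congr 2
  split_ifs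
  · rw [show (-1 - 2 * (1 - 2 * p : ℝ) : ℂ) = (4 * p - 3 : ℝ) by push_cast; ring, normSq_ofReal]
    ring
  · rw [show (1 - 2 * (1 - 2 * p : ℝ) : ℂ) = (4 * p - 1 : ℝ) by push_cast; ring, normSq_ofReal]
    ring

lemma Samp.unif [Fintype A] [Nonempty A] :
    Samp 0 fun (_ : ι → Bool) (f : A → ℝ) => ∑ a, (Fintype.card A : ℝ)⁻¹ * f a := by
  classical
  obtain ⟨a0⟩ := ‹Nonempty A›
  obtain ⟨U, hU, h⟩ := exists_unit (fun _ : A => √(Fintype.card A : ℝ)⁻¹) (by
    rw [Real.sq_sqrt (by positivity)]; simp) a0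
  refine ⟨A, inferInstance, inferInstance, a0, _, id, QU.const hU, fun x f => ?_⟩
  simp only [h, normSq_ofReal, Real.mul_self_sqrt (show 0 ≤ (Fintype.card A : ℝ)⁻¹ by positivity),
    id]

/-- the Hadamard gate -/
noncomputable def Had : Matrix Bool Bool ℂ := of fun b b' => (√2⁻¹ : ℝ) * if b && b' then -1 else 1

lemma sq2 : ((√2⁻¹ : ℝ) : ℂ) * (√2⁻¹ : ℝ) = 2⁻¹ := by
  rw [← ofReal_mul, Real.mul_self_sqrt (by positivity)]; simp

lemma Had_unit : Had ∈ unitaryGroup Bool ℂ := by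
  rw [mem_unitaryGroup_iff]
  have := sq2
  ext b b'
  cases b <;> cases b' <;> simp only [Had, mul_apply, star_apply, of_apply, Fintype.sum_bool,
    star_mul', star_def, conj_ofReal] <;> simp [-ofReal_inv, -Real.sqrt_inv, this] <;> norm_num

lemma Samp.htest [Fintype W] [DecidableEq W] {V : (ι → Bool) → Matrix W W ℂ} (h : QU T V) (w0 : W) :
    Samp T fun x (f : Bool → ℝ) =>
      (1 + (V x w0 w0).re) / 2 * f false + (1 - (V x w0 w0).re) / 2 * f true := by
  have hH := ctrl_unit (Equiv.prodComm W Bool) fun _ => Had_unit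
  refine ⟨W × Bool, inferInstance, inferInstance, (w0, false), _, Prod.snd,
    ((QU.ctrl (Equiv.refl _) (V := fun b x => if b then V x else 1) fun b => ?_).lmul hH).rmul hH,
    fun x f => ?_⟩
  · cases b
    · exact (QU.const (one_mem _)).mono T.zero_le
    · exact h
  have e : ∀ w (b : Bool), ((ctrl (Equiv.prodComm W Bool) fun _ => Had) * (ctrl (Equiv.refl _) fun b : Bool =>
      if b then V x else 1) * ctrl (Equiv.prodComm W Bool) fun _ => Had) (w, b) (w0, false) =
      2⁻¹ * ((if w = w0 then 1 else 0) + (if b then -1 else 1) * V x w w0) := by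
    intro w b
    simp [ctrl, mul_apply, blockDiagonal_apply, Fintype.sum_prod_type, Had, -ofReal_inv,
      -Real.sqrt_inv, one_apply, ← sq2]
    cases b <;> split_ifs <;> simp_all [-ofReal_inv, -Real.sqrt_inv] <;> ring
  have e2 := unit_col (h.unit x) w0
  simp only [Fintype.sum_prod_type, e, Fintype.sum_bool, sum_add_distrib, ← sum_mul, map_mul,
    normSq_add, ← mul_sum]
  simp [e2, apply_ite normSq, apply_ite Complex.re]
  ring

lemma Samp.read (i : ι) : Samp 1 fun (x : ι → Bool) f => f (x i) := by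
  convert Samp.htest (QU.oracle fun _ : Unit => some i) () using 3 with x f
  cases h : x i <;> simp [OO, h]

theorem Samp.computes {n : ℕ} (i0 : Fin n) {μ : (Fin n → Bool) → (Bool → ℝ) → ℝ} (h : Samp T μ)
    {F : (Fin n → Bool) → Bool} (hF : ∀ x, 2 / 3 ≤ μ x fun b => if b = F x then 1 else 0) :
    QuantumComputes F T := by
  obtain ⟨W, i1, i2, w0, V, out, h1, h2⟩ := h
  set e := (Fintype.equivFin W).symm
  let σ : QIdx n (Fintype.card W) ≃ (Fin n × Bool) × W :=
    (Equiv.prodAssoc _ _ _).symm.trans ((Equiv.refl _).prodCongr e)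
  let emb : (W → ℂ) → QIdx n (Fintype.card W) → ℂ := fun φ s =>
    if (σ s).1 = (i0, false) then φ (σ s).2 else 0
  have k1 : ∀ (U : Matrix W W ℂ) φ, ctrl (σ.trans (Equiv.prodComm _ _)) (fun _ => U) *ᵥ emb φ =
      emb (U *ᵥ φ) := fun U φ => by
    ext s
    simp only [mulVec, dotProduct, emb]
    rw [← σ.symm.sum_comp]
    simp [ctrl, blockDiagonal_apply, Fintype.sum_prod_type, -Prod.mk.eta]
  have k2 : ∀ q : W → Option (Fin n), ∃ Y ∈ unitaryGroup (QIdx n (Fintype.card W)) ℂ,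
      ∀ x φ, oracle x (Y *ᵥ emb φ) = Y *ᵥ emb (OO q x *ᵥ φ) := by
    intro q
    choose Y hY hY' using fun w => exists_unit (fun p : Fin n × Bool =>
      if p.1 = (q w).getD i0 then √2⁻¹ * if (q w).isSome && p.2 then -1 else 1 else 0) (by
        simp [Fintype.sum_prod_type, sum_add_distrib]; norm_num) (i0, false)
    have : ∀ φ s, (ctrl σ Y *ᵥ emb φ) s = Y (σ s).2 (σ s).1 (i0, false) * φ (σ s).2 := by
      intro φ s
      simp only [mulVec, dotProduct, emb]
      rw [← σ.symm.sum_comp]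
      simp [ctrl, blockDiagonal_apply, Fintype.sum_prod_type]
    refine ⟨_, ctrl_unit σ hY, fun x φ => ?_⟩
    ext ⟨i, b, z⟩
    simp only [oracle, this, hY', OO, mulVec_diagonal,
      show ∀ i b z, σ (i, b, z) = ((i, b), e z) from fun _ _ _ => rfl]
    rcases q (e z) with _ | j
    · simp
    · by_cases h : i = j
      · subst h; cases b <;> cases h : x i <;> simp [h]
      · simp [h]
  have k3 : ∀ (T : ℕ) (V : (Fin n → Bool) → Matrix W W ℂ), QU T V →
      ∀ Y ∈ unitaryGroup (QIdx n (Fintype.card W)) ℂ, ∃ U : ℕ → _,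
      (∀ t, U t ∈ unitaryGroup (QIdx n (Fintype.card W)) ℂ) ∧ ∀ x,
      stateAfter U x (emb (Pi.single w0 1)) T = Y *ᵥ emb (V x *ᵥ Pi.single w0 1) := by
    intro T
    induction T with
    | zero =>
      rintro V ⟨U, hU, h⟩ Y hY
      refine ⟨fun _ => _, fun _ => mul_mem hY (ctrl_unit (σ.trans (Equiv.prodComm _ _))
        fun _ => hU), fun x => ?_⟩
      rw [stateAfter, ← mulVec_mulVec, k1, h]
    | succ T ih =>
      rintro V ⟨U, hU, q, V', h1, h⟩ Y hY
      obtain ⟨Z, hZ, hZ'⟩ := k2 q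
      obtain ⟨U', hU', hs⟩ := ih V' h1 Z hZ
      refine ⟨fun t => if t ≤ T then U' t else
        Y * ctrl (σ.trans (Equiv.prodComm _ _)) (fun _ => U) * star Z, fun t => ?_, fun x => ?_⟩
      · dsimp only
        split_ifs
        · exact hU' t
        · exact mul_mem (mul_mem hY (ctrl_unit _ fun _ => hU)) (Unitary.star_mem hZ)
      · have : ∀ t ≤ T, stateAfter (fun t => if t ≤ T then U' t else
            Y * ctrl (σ.trans (Equiv.prodComm _ _)) (fun _ => U) * star Z) x
            (emb (Pi.single w0 1)) t = stateAfter U' x (emb (Pi.single w0 1)) t := by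
          intro t ht
          induction t with
          | zero => simp [stateAfter]
          | succ t ih => simp only [stateAfter, if_pos ht, ih (by omega)]
        rw [stateAfter, this T le_rfl, hs, hZ', if_neg (by omega), mulVec_mulVec, mul_assoc _ _ Z,
          mem_unitaryGroup_iff'.1 hZ, mul_one, ← mulVec_mulVec, k1, h, ← mulVec_mulVec,
          ← mulVec_mulVec]
  obtain ⟨U, hU, hs⟩ := k3 T V h1 1 (one_mem _)
  refine ⟨_, U, emb (Pi.single w0 1), fun s => out (σ s).2, hU, ?_, fun x => ?_⟩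
  · rw [← σ.symm.sum_comp]
    simp [emb, Fintype.sum_prod_type, Pi.single_apply, apply_ite]
  · refine (hF x).trans_eq ?_
    rw [h2, hs, one_mulVec, ← σ.symm.sum_comp]
    simp only [emb, Equiv.apply_symm_apply, Fintype.sum_prod_type, ← normSq_eq_norm_sq]
    rw [Fintype.sum_eq_single i0 (by simp +contextual)]
    simp

end Crest.Agent.H5.QQ
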