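import Mathlib
import Crest.Agent.H5.QQ.Q1

/-!
Finite distributions as functionals, product weights, amplitude amplification, tournament search.
-/

set_option autoImplicit false
set_option linter.unusedSectionVars false

namespace Crest.Agent.H5.QQ

open Finset Function

variable {ι : Type} {A B C I : Type}

/-- indicator -/
noncomputable def ind (p : Prop) : ℝ := by classical exact if p then 1 else 0

lemma ind_pos {p : Prop} (h : p) : ind p = 1 := by simp [ind, h]
lemma ind_neg {p : Prop} (h : ¬p) : ind p = 0 := by simp [ind, h]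
lemma ind_nonneg (p : Prop) : 0 ≤ ind p := by unfold ind; split_ifs <;> norm_num
lemma ind_le (p : Prop) : ind p ≤ 1 := by unfold ind; split_ifs <;> norm_num
lemma ind_eq (p : Prop) [Decidable p] : ind p = if p then 1 else 0 := by
  by_cases h : p <;> simp [ind, h]

/-- finitely supported probability distributions, as functionals -/
def IsD (E : (A → ℝ) → ℝ) : Prop :=
  ∃ (W : Type) (_ : Fintype W) (p : W → ℝ) (out : W → A), (∀ w, 0 ≤ p w) ∧ ∑ w, p w = 1 ∧
    ∀ f, E f = ∑ w, p w * f (out w)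

variable {T T' d d' : ℕ} {μ : (ι → Bool) → (A → ℝ) → ℝ} {E : (A → ℝ) → ℝ}

lemma Samp.isD (h : Samp T μ) (x : ι → Bool) : IsD (μ x) :=
  let ⟨W, i1, _, w0, _, out, h1, h2⟩ := h
  ⟨W, i1, _, out, fun _ => Complex.normSq_nonneg _, unit_col (h1.unit x) w0, h2 x⟩

lemma IsD.mono (h : IsD E) {f g : A → ℝ} (hf : ∀ a, f a ≤ g a) : E f ≤ E g := by
  obtain ⟨W, _, p, out, h0, -, h2⟩ := h
  rw [h2, h2]
  exact sum_le_sum fun w _ => mul_le_mul_of_nonneg_left (hf _) (h0 w)

lemma IsD.const (h : IsD E) (c : ℝ) : E (fun _ => c) = c := by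
  obtain ⟨W, _, p, out, -, h1, h2⟩ := h
  rw [h2, ← sum_mul, h1, one_mul]

lemma IsD.add (h : IsD E) (f g : A → ℝ) : E (fun a => f a + g a) = E f + E g := by
  obtain ⟨W, _, p, out, -, -, h2⟩ := h
  simp only [h2, mul_add, sum_add_distrib]

lemma IsD.mul (h : IsD E) (c : ℝ) (f : A → ℝ) : E (fun a => c * f a) = c * E f := by
  obtain ⟨W, _, p, out, -, -, h2⟩ := h
  simp only [h2, mul_sum, mul_left_comm]

lemma IsD.lin (h : IsD E) (b c : ℝ) (f : A → ℝ) : E (fun a => b + c * f a) = b + c * E f := by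
  rw [h.add, h.const, h.mul]

lemma IsD.sum (h : IsD E) (s : Finset I) (f : I → A → ℝ) :
    E (fun a => ∑ i ∈ s, f i a) = ∑ i ∈ s, E (f i) := by
  obtain ⟨W, _, p, out, -, -, h2⟩ := h
  simp only [h2, mul_sum]
  exact sum_comm

lemma IsD.nonneg (h : IsD E) {f : A → ℝ} (hf : ∀ a, 0 ≤ f a) : 0 ≤ E f :=
  (h.const 0).symm.trans_le (h.mono hf)

lemma IsD.le (h : IsD E) {f : A → ℝ} {c : ℝ} (hf : ∀ a, f a ≤ c) : E f ≤ c :=
  (h.mono hf).trans_eq (h.const c)

lemma IsD.comm (h : IsD E) {E' : (B → ℝ) → ℝ} (h' : IsD E') (f : A → B → ℝ) :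
    E (fun a => E' fun b => f a b) = E' fun b => E fun a => f a b := by
  obtain ⟨W, _, p, out, -, -, h2⟩ := h
  simp only [h2]
  rw [h'.sum]
  simp only [h'.mul]

/-- deterministic computations -/
def Det (d : ℕ) (g : (ι → Bool) → A) : Prop := Samp d fun x f => f (g x)

lemma Det.map {g : (ι → Bool) → A} (h : Det d g) (k : A → B) : Det d fun x => k (g x) :=
  Samp.map h k

lemma Det.bind {g : (ι → Bool) → A} (h : Det d g) {k : A → (ι → Bool) → B}
    (h' : ∀ a, Det d' (k a)) : Det (d + d') fun x => k (g x) x := Samp.bind h h'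

lemma Det.pair {g : (ι → Bool) → A} (h : Det d g) {k : (ι → Bool) → B} (h' : Det d' k) :
    Det (d + d') fun x => (g x, k x) := h.bind (k := fun a x => (a, k x)) fun a => h'.map (a, ·)

lemma Det.read (i : ι) : Det 1 fun x => x i := Samp.read i

lemma Det.pi [Fintype I] [Inhabited A] {g : I → (ι → Bool) → A} (h : ∀ i, Det d (g i)) :
    Det (Fintype.card I * d) fun x i => g i x := by
  classical
  have : ∀ s : Finset I, Det (#s * d) fun x i => if i ∈ s then g i x else default := by
    intro s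
    induction s using Finset.induction_on with
    | empty => simpa [Det] using Samp.pure (ι := ι) fun _ : I => (default : A)
    | insert b s hb ih =>
      rw [card_insert_of_notMem hb, add_one_mul]
      convert (ih.pair (h b)).map fun p => update p.1 b p.2 using 2 with x
      ext i
      by_cases hi : i = b <;> simp [hi]
  simpa using this univ

section pw
variable {R : Type} [CommRing R] [Fintype I] [DecidableEq I] [Fintype A]

/-- product weights -/
def pw (w : I → A → R) (f : (I → A) → R) : R := ∑ ω, (∏ i, w i (ω i)) * f ω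

lemma pw_update {w : I → A → R} {b : I} (hb : ∑ a, w b a = 1) (r : A → R) (f : (I → A) → R) :
    pw (update w b r) f = pw w fun ω => ∑ a, r a * f (update ω b a) := by
  have e : ∀ (w : I → A → R) (ω : I → A), ∏ i, w i (ω i) = w b (ω b) * ∏ i ∈ univ.erase b, w i (ω i) :=
    fun w ω => (mul_prod_erase _ _ (mem_univ b)).symm
  have e2 : ∀ (ω : I → A) (a : A), ∏ i ∈ univ.erase b, w i (update ω b a i) =
      ∏ i ∈ univ.erase b, w i (ω i) := fun ω a =>
    prod_congr rfl fun i hi => by rw [update_of_ne (ne_of_mem_erase hi)]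
  have e3 : ∀ ω : I → A, ∏ i ∈ univ.erase b, update w b r i (ω i) = ∏ i ∈ univ.erase b, w i (ω i) :=
    fun ω => prod_congr rfl fun i hi => by rw [update_of_ne (ne_of_mem_erase hi)]
  simp only [pw, e, mul_sum, e3, update_self]
  rw [← Fintype.sum_prod_type', ← Equiv.sum_comp (Involutive.toPerm
    (fun p : (I → A) × A => (update p.1 b p.2, p.1 b)) fun p => by simp), Fintype.sum_prod_type]
  refine sum_congr rfl fun ω _ => ?_
  simp only [Involutive.coe_toPerm, update_self, e2, update_idem, update_eq_self, mul_assoc,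
    ← sum_mul, hb]
  ring

lemma pw_split {w : I → A → R} {b : I} (hb : ∑ a, w b a = 1) (f : (I → A) → R) :
    pw w f = pw w fun ω => ∑ a, w b a * f (update ω b a) := by
  rw [← pw_update hb, update_eq_self]

lemma pw_const (w : I → A → R) (c : R) : pw w (fun _ => c) = (∏ i, ∑ a, w i a) * c := by
  rw [pw, ← sum_mul, prod_univ_sum, Fintype.piFinset_univ]

/-- probability weights -/
def PW (w : A → ℝ) : Prop := (∀ a, 0 ≤ w a) ∧ ∑ a, w a = 1

lemma PW.isD {w : A → ℝ} (h : PW w) : IsD fun f => ∑ a, w a * f a :=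
  ⟨A, inferInstance, w, id, h.1, h.2, fun _ => rfl⟩

lemma pw_isD {w : I → A → ℝ} (h : ∀ i, PW (w i)) : IsD (pw w) :=
  ⟨I → A, inferInstance, _, id, fun ω => prod_nonneg fun i _ => (h i).1 _, by
    simpa [pw, (h _).2] using pw_const w 1, fun _ => rfl⟩

lemma Samp.pi [Inhabited A] {w : (ι → Bool) → I → A → ℝ}
    (h : ∀ i, Samp T fun x f => ∑ a, w x i a * f a) (hw : ∀ x i, PW (w x i)) :
    Samp (Fintype.card I * T) fun x => pw (w x) := by
  have : ∀ s : Finset I, Samp (#s * T) fun x f =>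
      pw (w x) fun ω => f fun i => if i ∈ s then ω i else default := by
    intro s
    induction s using Finset.induction_on with
    | empty =>
      convert Samp.pure (ι := ι) fun _ : I => (default : A) using 3 with x f
      · simp
      · simpa using (pw_isD (hw x)).const _
    | insert b s hb ih =>
      rw [card_insert_of_notMem hb, add_one_mul]
      convert ih.bind fun ω => (h b).map (update ω b) using 3 with x f
      rw [pw_split (hw x b).2]
      congr; ext ω; congr; ext a; congr; ext i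
      by_cases hi : i = b <;> simp [hi]
  simpa using this univ

lemma pw_var {w : I → A → ℝ} (h : ∀ i, PW (w i)) {g : I → A → ℝ} (hg : ∀ i a, |g i a| ≤ 1)
    (s : Finset I) : pw w (fun ω => (∑ i ∈ s, (g i (ω i) - ∑ a, w i a * g i a)) ^ 2) ≤ #s := by
  induction s using Finset.induction_on with
  | empty => simp [pw]
  | insert b s hb ih =>
    rw [pw_split (h b).2, card_insert_of_notMem hb]
    refine ((pw_isD h).mono (g := fun ω => 1 + 1 *
      (∑ i ∈ s, (g i (ω i) - ∑ a, w i a * g i a)) ^ 2) fun ω => ?_).trans (by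
        rw [(pw_isD h).lin]; push_cast; linarith)
    have e : ∀ a, ∑ i ∈ s, (g i (update ω b a i) - ∑ a, w i a * g i a) =
        ∑ i ∈ s, (g i (ω i) - ∑ a, w i a * g i a) := fun a =>
      sum_congr rfl fun i hi => by rw [update_of_ne (ne_of_mem_of_not_mem hi hb)]
    simp only [sum_insert hb, update_self, e]
    set S := ∑ i ∈ s, (g i (ω i) - ∑ a, w i a * g i a)
    set m := ∑ a, w b a * g b a with hm
    refine ((h b).isD.mono (g := fun a => (1 + (S - m) ^ 2) + 2 * (S - m) * g b a)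
      fun a => ?_).trans ?_
    · nlinarith [sq_le_one_iff_abs_le_one _ |>.2 (hg b a)]
    · have := (h b).isD.lin (1 + (S - m) ^ 2) (2 * (S - m)) (g b)
      simp only at this ⊢
      rw [this, ← hm]
      nlinarith [sq_nonneg m]

lemma pw_cheb {w : I → A → ℝ} (h : ∀ i, PW (w i)) {g : I → A → ℝ} (hg : ∀ i a, |g i a| ≤ 1)
    (s : Finset I) {l : ℝ} (hl : 0 < l) (p : (I → A) → Prop)
    (hp : ∀ ω, p ω → l ≤ |∑ i ∈ s, (g i (ω i) - ∑ a, w i a * g i a)|) :
    pw w (fun ω => ind (p ω)) ≤ #s / l ^ 2 := by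
  rw [le_div_iff₀' (by positivity), ← (pw_isD h).mul]
  refine ((pw_isD h).mono fun ω => ?_).trans (pw_var h hg s)
  by_cases h1 : p ω
  · rw [ind_pos h1, mul_one, ← sq_abs (∑ i ∈ s, _)]
    exact pow_le_pow_left₀ hl.le (hp ω h1) 2
  · rw [ind_neg h1, mul_zero]; positivity

end pw

/-- amplification with a random number of rounds -/
noncomputable def mix (n : ℕ) (g : A → Bool) (E : (A → ℝ) → ℝ) (f : A → ℝ) : ℝ :=
  ∑ i : Fin (n + 1), (Fintype.card (Fin (n + 1)) : ℝ)⁻¹ * (amp g)^[i] E f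

lemma Samp.mix (h : Samp T μ) {g : A → (ι → Bool) → Bool} (hg : ∀ a, Det d (g a)) (n : ℕ) :
    Samp (3 ^ n * (T + 2 * d)) fun x => mix n (g · x) (μ x) := by
  have : ∀ i, ∃ T', T' + 2 * d ≤ 3 ^ i * (T + 2 * d) ∧
      Samp T' fun x => (QQ.amp (g · x))^[i] (μ x) := by
    intro i
    induction i with
    | zero => exact ⟨T, by simp, h⟩
    | succ i ih =>
      obtain ⟨T', h1, h2⟩ := ih
      refine ⟨3 * (T' + d), by rw [pow_succ]; nlinarith, ?_⟩
      simp only [iterate_succ_apply']
      exact ((h2.bind fun a => (hg a).map (a, ·)).amp Prod.snd).map Prod.fst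
  exact zero_add (3 ^ n * (T + 2 * d)) ▸ Samp.unif.bind (A := Fin (n + 1)) (T' := 3 ^ n * (T + 2 * d)) fun i =>
    let ⟨_, h1, h2⟩ := this i
    h2.mono ((Nat.le_add_right _ _).trans (h1.trans (Nat.mul_le_mul_right _
      (Nat.pow_le_pow_right (by norm_num) (Nat.lt_succ_iff.1 i.2)))))

lemma IsD.mix (h : IsD E) (g : A → Bool) (n : ℕ) (hn : 1 ≤ 9 ^ n * E fun a => ind (g a))
    {f : A → ℝ} (hf : ∀ a, 0 ≤ f a) : (4 * (n + 1 : ℝ))⁻¹ * E (fun a => ind (g a) * f a) ≤
      E (fun a => ind (g a)) * mix n g E fun a => ind (g a) * f a := by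
  set p := E fun a => ind (g a) with hp
  have p0 : 0 < p := by by_contra h'; nlinarith [show (0 : ℝ) < 9 ^ n by positivity]
  have p1 : √p ≤ 1 := Real.sqrt_le_one.2 (h.le fun _ => ind_le _)
  set θ := Real.arcsin √p
  have hθ : Real.sin θ = √p := Real.sin_arcsin (by linarith [Real.sqrt_nonneg p]) p1
  have key : ∀ (i : ℕ) (f : A → ℝ), p * (amp g)^[i] E (fun a => ind (g a) * f a) =
      Real.sin (3 ^ i * θ) ^ 2 * E fun a => ind (g a) * f a := by
    intro i
    induction i with
    | zero => intro f; simp [hθ, Real.sq_sqrt p0.le]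
    | succ i ih =>
      intro f
      have e1 := ih fun _ => 1
      simp only [mul_one, ← hp, mul_comm p, mul_left_inj' p0.ne'] at e1
      simp only [ind_eq] at e1
      rw [iterate_succ_apply', amp, e1, pow_succ' (3 : ℝ), mul_assoc (3 : ℝ), Real.sin_three_mul]
      have e2 := ih fun a => (3 - 4 * Real.sin (3 ^ i * θ) ^ 2) ^ 2 * f a
      simp only [mul_left_comm (ind _), h.mul] at e2
      convert e2 using 1
      · refine congrArg _ (congrArg _ (funext fun a => ?_))
        cases g a <;> simp [ind]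
      · ring
  have ex : ∃ i, Real.pi / 6 ≤ 3 ^ i * θ ∧ i ≤ n := by
    refine ⟨n, ?_, le_rfl⟩
    have a1 : √p ≤ θ := hθ ▸ Real.sin_le (Real.arcsin_nonneg.2 (Real.sqrt_nonneg p))
    have a2 : 1 ≤ 3 ^ n * √p := by
      refine abs_le_of_sq_le_sq' ?_ (by positivity) |>.2
      rwa [mul_pow, Real.sq_sqrt p0.le, one_pow, ← pow_mul, mul_comm n, pow_mul, show (3 : ℝ) ^ 2
        = 9 by norm_num]
    nlinarith [Real.pi_le_four, mul_le_mul_of_nonneg_left a1 (show (0 : ℝ) ≤ 3 ^ n by positivity)]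
  classical
  obtain ⟨a1, a2⟩ := Nat.find_spec ex
  have a3 : 3 ^ Nat.find ex * θ ≤ Real.pi / 2 := by
    rcases e : Nat.find ex with _ | i
    · simpa using Real.arcsin_le_pi_div_two _
    · have := Nat.find_min ex (show i < Nat.find ex by omega)
      rw [not_and', not_le] at this
      rw [pow_succ']; linarith [this (by omega)]
  have a4 := Real.sin_le_sin_of_le_of_le_pi_div_two (by linarith [Real.pi_pos]) a3 a1
  rw [Real.sin_pi_div_six] at a4
  have f0 := h.nonneg fun a => mul_nonneg (ind_nonneg (g a)) (hf a)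
  simp only [QQ.mix, mul_sum, mul_left_comm p, key]
  refine le_trans ?_ (single_le_sum (fun i _ => by positivity)
    (mem_univ (⟨Nat.find ex, by omega⟩ : Fin (n + 1))))
  simp only [Fintype.card_fin, mul_inv, mul_assoc, mul_left_comm (4⁻¹ : ℝ)]
  push_cast
  gcongr
  nlinarith

/-- repeated trials -/
def orr (E : (Bool → ℝ) → ℝ) : ℕ → (Bool → ℝ) → ℝ
  | 0, f => f false
  | u + 1, f => E fun b => orr E u fun b' => f (b || b')

lemma Samp.orr {μ : (ι → Bool) → (Bool → ℝ) → ℝ} (h : Samp T μ) (u : ℕ) :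
    Samp (u * T) fun x => orr (μ x) u := by
  induction u with
  | zero => exact (Samp.pure false).mono (Nat.zero_le _)
  | succ u ih => exact (show T + u * T = (u + 1) * T by ring) ▸ h.bind fun b => ih.map (b || ·)

lemma IsD.orr {E : (Bool → ℝ) → ℝ} (h : IsD E) (u : ℕ) (c : ℝ) :
    orr E u (fun b => c * ind (b = false)) = c * E (fun b => ind (b = false)) ^ u := by
  induction u generalizing c with
  | zero => simp [QQ.orr, ind]
  | succ u ih =>
    have e : ∀ b b' : Bool, c * ind ((b || b') = false) = c * ind (b = false) * ind (b' = false) :=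
      fun b b' => by cases b <;> cases b' <;> simp [ind]
    simp only [QQ.orr, e, ih]
    rw [pow_succ, ← mul_assoc, ← h.mul]
    congr 1; ext; ring

lemma pow_le_exp {P : ℕ} (hP : 1 ≤ P) (m : ℕ) {a : ℝ} (a0 : 0 ≤ a) (ha : a ≤ 1 - (P : ℝ)⁻¹) :
    a ^ (P * m) ≤ Real.exp (-m) := by
  refine (pow_le_pow_left₀ a0 (ha.trans (Real.one_sub_le_exp_neg _)) _).trans_eq ?_
  rw [← Real.exp_nat_mul]
  congr 1
  push_cast
  field_simp

section tour
variable (n : ℕ) (surv : C → C → Bool) (E : (C → ℝ) → ℝ)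

/-- tournament rounds -/
noncomputable def rounds : (s : ℕ) → ((Fin s → C) → ℝ) → ℝ
  | 0, f => f Fin.elim0
  | s + 1, f => rounds s fun R => mix n (fun c => decide (∀ i, surv (R i) c)) E
      fun r => f (Fin.cons r R)

end tour

lemma Samp.mixR {μ : (ι → Bool) → (C → ℝ) → ℝ} (h : Samp T μ) {surv : C → C → (ι → Bool) → Bool}
    (hs : ∀ r c, Det d (surv r c)) (n : ℕ) {s : ℕ} (R : Fin s → C) :
    Samp (3 ^ n * (T + 2 * (s * d))) fun x =>
      QQ.mix n (fun c => decide (∀ i, surv (R i) c x)) (μ x) :=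
  h.mix (g := fun c x => decide (∀ i, surv (R i) c x)) (fun c => by
    simpa using (Det.pi fun i => hs (R i) c).map fun v => decide (∀ i, v i)) n

lemma Samp.rounds {μ : (ι → Bool) → (C → ℝ) → ℝ} (h : Samp T μ) {surv : C → C → (ι → Bool) → Bool}
    (hs : ∀ r c, Det d (surv r c)) (n s : ℕ) :
    Samp (s * (3 ^ n * (T + 2 * (s * d)))) fun x => rounds n (surv · · x) (μ x) s := by
  induction s with
  | zero => exact (Samp.pure _).mono (Nat.zero_le _)
  | succ s ih =>
    refine (ih.bind fun R => (h.mixR hs n R).map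
      fun r => (Fin.cons r R : Fin (s + 1) → C)).mono ?_
    rw [← add_one_mul]
    gcongr
    omega

theorem tourn {K : Type} {μ : (ι → Bool) → (C → ℝ) → ℝ} (h : Samp T μ)
    {surv : C → C → (ι → Bool) → Bool} (hs : ∀ r c, Det d (surv r c)) (col : C → K) (n m : ℕ)
    {β : ℝ} (hn : 2 ≤ 9 ^ n * β) (hm : Real.exp (-m) ≤ β) (x : ι → Bool) (c0 : C)
    (h0 : ∀ r, surv r c0 x) (h1 : ∀ r c, surv r c x → surv c r x → col r = col c)
    (h2 : ∀ k, μ x (fun c => ind (col c = k)) ≤ β) (h3 : β / 2 ≤ μ x fun c => ind (c = c0)) :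
    (16 * (n + 1 : ℝ))⁻¹ ≤ rounds n (surv · · x) (μ x) (8 * (n + 1) * m) fun R =>
      mix n (fun c => decide (∀ i, surv (R i) c x)) (μ x) fun c => ind (c = c0) := by
  have D := h.isD x
  have b0 : 0 < β := (Real.exp_pos _).trans_le hm
  set p := (4 * (n + 1 : ℝ))⁻¹ with hp
  have p0 : 0 < p := by positivity
  have p1 : p ≤ 1 := inv_le_one_of_one_le₀ (by linarith [n.cast_nonneg (α := ℝ)])
  let M : ∀ {s}, (Fin s → C) → ℝ := fun R => μ x fun c => ind (decide (∀ i, surv (R i) c x))
  have m1 : ∀ {s} (R : Fin s → C), β / 2 ≤ M R := fun R => h3.trans (D.mono fun c => by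
    by_cases hc : c = c0
    · simp [hc, h0, ind]
    · rw [ind_neg hc]; exact ind_nonneg _)
  have m2 : ∀ {s} (R : Fin s → C), 1 ≤ 9 ^ n * M R := fun R => by
    nlinarith [mul_le_mul_of_nonneg_left (m1 R) (show (0 : ℝ) ≤ 9 ^ n by positivity)]
  have step : ∀ {s} (R : Fin s → C), mix n (fun c => decide (∀ i, surv (R i) c x)) (μ x)
      (fun r => M (Fin.cons r R : Fin (s + 1) → C)) ≤ p * β / 2 + (1 - p / 2) * M R := by
    intro s R
    have D2 := (h.mixR hs n R).isD x
    set g : C → ℝ := fun c => ind (decide (∀ i, surv (R i) c x))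
    have g0 : ∀ c, 0 ≤ g c := fun c => ind_nonneg _
    have e : ∀ r, M (Fin.cons r R : Fin (s + 1) → C) = μ x fun c => g c * ind (surv r c x) :=
      fun r => congrArg (μ x) (funext fun c => by
        simp only [g, Fin.forall_fin_succ, Fin.cons_zero, Fin.cons_succ]
        by_cases h : surv r c x <;> simp [h, ind])
    have a1 : ∀ r, M (Fin.cons r R : Fin (s + 1) → C) ≤ M R := fun r => (e r).trans_le
      (D.mono fun c => mul_le_of_le_one_right (g0 c) (ind_le _))
    have a2 := D.mix _ n (m2 R) fun r => sub_nonneg.2 (a1 r)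
    have a3 : 2 * μ x (fun r => g r * M (Fin.cons r R : Fin (s + 1) → C)) ≤ (M R + β) * M R := by
      rw [two_mul]
      simp only [e, ← D.mul]
      nth_rewrite 2 [D.comm D]
      simp only [← D.add]
      refine le_trans (D.mono fun r => ?_) (D.mul (M R + β) g).le
      rw [mul_comm]
      refine le_trans ?_ (mul_le_mul_of_nonneg_left (add_le_add le_rfl (h2 (col r))) (g0 r))
      rw [← D.add, ← D.mul]
      refine D.mono fun c => ?_
      have g1 : g c ≤ 1 := ind_le _
      have := mul_nonneg (g0 r) (ind_nonneg (col c = col r))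
      have := mul_nonneg (g0 r) (g0 c)
      by_cases k1 : surv r c x <;> by_cases k2 : surv c r x <;>
        simp only [ind_pos, ind_neg, k1, k2, Bool.false_eq_true, not_false_eq_true] <;>
        [rw [ind_pos (h1 c r k2 k1)]; skip; skip; skip] <;> nlinarith [g0 r]
    have a4 : μ x (fun r => g r * (M R - M (Fin.cons r R : Fin (s + 1) → C))) =
        M R * M R + -1 * μ x (fun r => g r * M (Fin.cons r R : Fin (s + 1) → C)) := by
      rw [← D.mul, ← D.mul, ← D.add]; congr; ext; ring
    have a5 := D2.mono (f := fun r => M (Fin.cons r R : Fin (s + 1) → C)) (g := fun r =>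
      M R + -1 * (g r * (M R - M (Fin.cons r R : Fin (s + 1) → C)))) fun r => by
        nlinarith [mul_le_mul_of_nonneg_right (ind_le _ : g r ≤ 1) (sub_nonneg.2 (a1 r))]
    rw [D2.lin] at a5
    refine a5.trans (le_of_mul_le_mul_left ?_ (show 0 < M R by linarith [m1 R]))
    rw [a4] at a2
    nlinarith [mul_le_mul_of_nonneg_left a3 p0.le]
  have pot : ∀ s, rounds n (surv · · x) (μ x) s M ≤ β + (1 - p / 2) ^ s := by
    intro s
    induction s with
    | zero => exact (D.le fun _ => ind_le _).trans (by simp [b0.le])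
    | succ s ih =>
      have D3 := (h.rounds hs n s).isD x
      refine (D3.mono step).trans ?_
      rw [D3.lin, pow_succ]
      nlinarith [mul_le_mul_of_nonneg_left ih (show 0 ≤ 1 - p / 2 by linarith)]
  have D3 := (h.rounds hs n (8 * (n + 1) * m)).isD x
  have a6 := (pot _).trans (add_le_add le_rfl ((pow_le_exp (P := 8 * (n + 1)) (by omega) m
    (by linarith) (by rw [hp]; push_cast; apply le_of_eq; field_simp; ring)).trans hm))
  refine le_trans ?_ (D3.mono (f := fun R => p / 2 + -(p / (8 * β)) * M R) fun R => ?_)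
  · rw [D3.lin, show (16 * (n + 1 : ℝ))⁻¹ = p / 4 by rw [hp]; field_simp; norm_num]
    have := mul_le_mul_of_nonneg_left a6 (show 0 ≤ p / (8 * β) by positivity)
    rw [show p / (8 * β) * (β + β) = p / 4 by field_simp; norm_num] at this
    linarith
  · have a7 := D.mix _ n (m2 R) fun c => ind_nonneg (c = c0)
    have e : ∀ c, ind (decide (∀ i, surv (R i) c x)) * ind (c = c0) = ind (c = c0) := fun c => by
      by_cases hc : c = c0 <;> simp [hc, h0, ind]
    simp only [e] at a7
    refine le_of_mul_le_mul_left (le_trans ?_ ((mul_le_mul_of_nonneg_left h3 p0.le).trans a7))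
      (show 0 < M R by linarith [m1 R])
    have : p * (β / 2) - M R * (p / 2 + -(p / (8 * β)) * M R) =
      p / (8 * β) * (M R - 2 * β) ^ 2 := by field_simp; ring
    linarith [show 0 ≤ p / (8 * β) * (M R - 2 * β) ^ 2 by positivity]

lemma finish {ρ : (ι → Bool) → (C → ℝ) → ℝ} (s1 : Samp T ρ)
    {v : C → (ι → Bool) → (Bool → ℝ) → ℝ} (s3 : ∀ c, Samp T' (v c)) {P : ℕ} (hP : 1 ≤ P)
    (ok : (ι → Bool) → C → Prop)
    (h1 : ∀ x c, ok x c → v c x (fun b => ind (b = false)) = 1 ∧
      (4 * P : ℝ)⁻¹ ≤ ρ x fun c' => ind (c' = c))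
    (h2 : ∀ x c, ¬ok x c → v c x (fun b => ind (b = false)) ≤ 1 - (P : ℝ)⁻¹) :
    ∃ ν : (ι → Bool) → (Bool → ℝ) → ℝ, Samp (8 * P * (T + P * (24 * P) * T')) ν ∧
      ∀ x (b0 : Bool), (b0 ↔ ∃ c, ok x c) → 2 / 3 ≤ ν x fun b => if b = b0 then 1 else 0 := by
  have s4 := s1.bind fun c => ((s3 c).orr (P * (24 * P))).map (!·)
  have s5 := s4.orr (8 * P)
  refine ⟨_, s5, fun x b0 hb => ?_⟩
  have o := (s4.isD x).orr (8 * P) 1
  have o2 := fun c c' => ((s3 c).isD x).orr (P * (24 * P)) c'
  have e1 : ∀ b : Bool, ind ((!b) = false) = 1 + -1 * ind (b = false) := fun b => by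
    cases b <;> simp [ind]
  have o3 := fun c => (((s3 c).orr (P * (24 * P))).isD x).add (fun _ => 1)
    fun b => -1 * ind (b = false)
  simp only [o2, (((s3 _).orr _).isD x).const] at o3
  simp only [one_mul, e1, o3] at o
  rw [(s1.isD x).lin] at o
  have P0 : (1 : ℝ) ≤ P := by exact_mod_cast hP
  have v0 := fun c => ((s3 c).isD x).nonneg fun b => ind_nonneg (b = false)
  cases b0
  · simp only [← ind_eq]
    rw [o]
    simp only [Bool.false_eq_true, false_iff, not_exists] at hb
    have a5 := (s1.isD x).le fun c => pow_le_exp hP (24 * P) (v0 c) (h2 x c (hb c))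
    have a6 : Real.exp (-((24 * P : ℕ) : ℝ)) ≤ (24 * P : ℝ)⁻¹ := by
      rw [Real.exp_neg]
      push_cast
      exact inv_anti₀ (by positivity) (by linarith [Real.add_one_le_exp (24 * P : ℝ)])
    have a7 : (24 * P : ℝ)⁻¹ ≤ 1 := inv_le_one_of_one_le₀ (by linarith)
    refine le_trans ?_ (one_add_mul_le_pow (by linarith) _)
    have : ((8 * P : ℕ) : ℝ) * (24 * P : ℝ)⁻¹ = 1 / 3 := by push_cast; field_simp; norm_num
    nlinarith [mul_le_mul_of_nonneg_left (a5.trans a6) (8 * P : ℕ).cast_nonneg]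
  · have e2 : ∀ b : Bool, (if b = true then 1 else 0 : ℝ) = 1 + -1 * ind (b = false) := fun b => by
      cases b <;> simp [ind]
    simp only [e2]
    rw [(s5.isD x).lin, o]
    obtain ⟨c0, hc0⟩ := hb.1 rfl
    have a1 := (h1 x c0 hc0).2.trans ((s1.isD x).mono
      (g := fun c => v c x (fun b => ind (b = false)) ^ (P * (24 * P))) fun c => by
        by_cases e : c = c0
        · rw [e, (h1 x c0 hc0).1, one_pow, ind_pos rfl]
        · rw [ind_neg e]
          exact pow_nonneg (v0 c) _)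
    have a2 := (s1.isD x).le fun c => pow_le_one₀ (n := P * (24 * P)) (v0 c)
      (((s3 c).isD x).le fun b => ind_le (b = false))
    have a3 := pow_le_exp (P := 4 * P) (by omega) 2 (sub_nonneg.2 a2) (by push_cast; linarith)
    rw [show 4 * P * 2 = 8 * P by ring, Real.exp_neg, sub_eq_add_neg, ← neg_one_mul] at a3
    have a4 : (Real.exp (2 : ℕ))⁻¹ ≤ 3⁻¹ :=
      inv_anti₀ (by norm_num) (by push_cast; linarith [Real.add_one_le_exp 2])
    linarith

theorem champ {K J : Type} [Fintype J] [Nonempty J] {μ : (ι → Bool) → (C → ℝ) → ℝ} (h : Samp T μ)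
    {surv : C → C → (ι → Bool) → Bool} (hs : ∀ r c, Det d (surv r c))
    {chk : C → J → (ι → Bool) → Bool} (hc : ∀ c j, Det d (chk c j)) (col : C → K) (n m : ℕ)
    {β : ℝ} (hn : 2 ≤ 9 ^ n * β) (hm : Real.exp (-m) ≤ β) (hJ : Fintype.card J ≤ 9 ^ n)
    (h1 : ∀ x r c, surv r c x → surv c r x → col r = col c)
    (h2 : ∀ x k, μ x (fun c => ind (col c = k)) ≤ β)
    (h3 : ∀ x c0, (∀ j, chk c0 j x) → (∀ r, surv r c0 x) ∧ β / 2 ≤ μ x fun c => ind (c = c0)) :
    ∃ ν : (ι → Bool) → (Bool → ℝ) → ℝ, Samp (3 ^ n * (8 * (4 * (n + 1)) * ((8 * (n + 1) * m + 1) *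
      (T + 2 * (8 * (n + 1) * m * d)) + 4 * (n + 1) * (24 * (4 * (n + 1))) * (3 * d)))) ν ∧
      ∀ x (b0 : Bool), (b0 ↔ ∃ c, ∀ j, chk c j x) → 2 / 3 ≤ ν x fun b => if b = b0 then 1 else 0 := by
  have s2 := fun c => Samp.unif.mix (g := fun j x => !chk c j x) (fun j => (hc c j).map (!·)) n
  obtain ⟨ν, s, hν⟩ := finish ((h.rounds hs n (8 * (n + 1) * m)).bind fun R => h.mixR hs n R)
    (fun c => (s2 c).bind fun j => (hc c j).map (!·)) (P := 4 * (n + 1)) (by omega)
    (fun x c => ∀ j, chk c j x) (fun x c hc0 => ⟨by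
      rw [← ((s2 c).isD x).const 1]; simp only [hc0, Bool.not_true, ind_pos], le_trans (le_of_eq (by
        push_cast; ring_nf)) (tourn h hs col n m hn hm x c (h3 x c hc0).1 (h1 x) (h2 x)
        (h3 x c hc0).2)⟩) (fun x c hb => by
      obtain ⟨j, hj⟩ := not_forall.1 hb
      have a2 : (Fintype.card J : ℝ)⁻¹ ≤ ∑ a, (Fintype.card J : ℝ)⁻¹ * ind (!chk c a x) :=
        le_trans (by simp [ind, hj]) (single_le_sum (fun a _ => mul_nonneg (by positivity)
          (ind_nonneg _)) (mem_univ j))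
      have a0 : (0 : ℝ) < Fintype.card J := by exact_mod_cast Fintype.card_pos
      have a3 := ((Samp.unif (A := J)).isD x).mix (fun j => !chk c j x) n (le_trans (by
        rw [← div_eq_mul_inv, one_le_div a0]; exact_mod_cast hJ)
        (mul_le_mul_of_nonneg_left a2 (by positivity))) fun _ => zero_le_one
      simp only [mul_one] at a3
      rw [mul_comm] at a3
      have a4 := le_of_mul_le_mul_left a3 (lt_of_lt_of_le (by positivity) a2)
      have e2 : ∀ b : Bool, ind (b = false) = 1 + -1 * ind (b = true) := fun b => by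
        cases b <;> simp [ind]
      simp only [e2]
      rw [((s2 c).isD x).lin]
      push_cast
      linarith)
  refine ⟨ν, s.mono ?_, hν⟩
  have : d ≤ 3 ^ n * d := Nat.le_mul_of_pos_left _ (by positivity)
  rw [mul_left_comm (3 ^ n)]
  gcongr
  nlinarith [Nat.mul_le_mul_left (4 * (n + 1) * (24 * (4 * (n + 1)))) this]

end Crest.Agent.H5.QQ
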