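import Mathlib
import Crest.Agent.H5.QQ.Q2

/-!
Multilinear extensions and the level bound for decision trees.
-/

set_option autoImplicit false
set_option linter.unusedSectionVars false

namespace Crest.Agent.H5.QQ

open Finset Function

/-- sign of a bit -/
def sg (b : Bool) : ℝ := if b then -1 else 1

lemma sg_abs (b : Bool) : |sg b| = 1 := by cases b <;> simp [sg]
lemma sg_mul (b : Bool) : sg b * sg b = 1 := by cases b <;> simp [sg]

variable {J : Type} [Fintype J] [DecidableEq J] {R R' : Type} [CommRing R] [Algebra ℝ R]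
  [CommRing R'] [Algebra ℝ R']

lemma pw_update' {A : Type} [Fintype A] {w : J → A → R} {b : J} (hb : ∑ a, w b a = 1) (r : A → R)
    (f : (J → A) → R) : pw (update w b r) f = ∑ a, r a * pw w fun ω => f (update ω b a) := by
  rw [pw_update hb]
  simp only [pw, mul_sum, mul_left_comm (r _)]
  exact sum_comm

/-- weights of the derivative of the multilinear extension -/
noncomputable def mw (S : Finset J) (z : J → R) (j : J) (b : Bool) : R :=
  if j ∈ S then algebraMap ℝ R (sg b / 2)
  else algebraMap ℝ R (1 / 2) + algebraMap ℝ R (sg b / 2) * z j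

/-- derivative of the multilinear extension -/
noncomputable def ml (S : Finset J) (g : (J → Bool) → ℝ) (z : J → R) : R :=
  pw (mw S z) fun y => algebraMap ℝ R (g y)

lemma map_ml (φ : R →ₐ[ℝ] R') (S : Finset J) (g : (J → Bool) → ℝ) (z : J → R) :
    φ (ml S g z) = ml S g fun j => φ (z j) := by
  simp only [ml, pw, mw, map_sum, map_mul, map_prod, AlgHom.commutes, apply_ite φ, map_add]

lemma mw_insert {S : Finset J} {j : J} (z : J → R) :
    mw (insert j S) z = update (mw S z) j fun b => algebraMap ℝ R (sg b / 2) := by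
  ext i b
  by_cases h : i = j <;> simp [mw, h]

lemma der_prod (δ : Derivation ℝ R R) (s : Finset J) (f : J → R) :
    δ (∏ i ∈ s, f i) = ∑ i ∈ s, (∏ j ∈ s.erase i, f j) * δ (f i) := by
  induction s using Finset.induction_on with
  | empty => simp
  | insert a s ha ih =>
    rw [prod_insert ha, δ.leibniz, ih, sum_insert ha, erase_insert ha, smul_eq_mul, smul_eq_mul,
      mul_sum, add_comm]
    congr 1
    refine sum_congr rfl fun i hi => ?_
    rw [erase_insert_of_ne (ne_of_mem_of_not_mem hi ha).symm,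
      prod_insert fun h => ha (mem_of_mem_erase h), mul_assoc]

lemma der_ml (δ : Derivation ℝ R R) (S : Finset J) (g : (J → Bool) → ℝ) (z : J → R) :
    δ (ml S g z) = ∑ j, if j ∈ S then 0 else δ (z j) * ml (insert j S) g z := by
  simp only [ml, pw, map_sum, δ.leibniz, δ.map_algebraMap, der_prod, smul_eq_mul, mul_zero,
    zero_add, mul_sum]
  rw [sum_comm]
  refine sum_congr rfl fun j _ => ?_
  split_ifs with h
  · simp [mw, h]
  · refine sum_congr rfl fun y _ => ?_
    rw [mw_insert,
      ← mul_prod_erase _ _ (mem_univ j), update_self,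
      prod_congr (f := fun i => update (mw S z) j _ i (y i)) rfl fun i hi => by
        rw [update_of_ne (ne_of_mem_erase hi)]]
    simp only [mw, if_neg h, map_add, δ.leibniz, δ.map_algebraMap, smul_eq_mul]
    ring

lemma sum_mw (S : Finset J) (z : J → ℝ) (j : J) : ∑ b, mw S z j b = if j ∈ S then 0 else 1 := by
  split_ifs with h <;> simp [mw, h, sg] <;> ring

lemma ml_abs (S : Finset J) {g : (J → Bool) → ℝ} (hg : ∀ y, |g y| ≤ 1) (z : J → ℝ) :
    |ml S g z| ≤ ∏ j, max 1 |z j| := by
  refine (abs_sum_le_sum_abs _ _).trans (le_trans (sum_le_sum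
    fun y _ => ?_) ((pw_const (fun j b => |mw S z j b|) 1).trans_le ?_))
  · rw [abs_mul, abs_prod]
    exact mul_le_mul_of_nonneg_left (hg y) (prod_nonneg fun _ _ => abs_nonneg _)
  · rw [mul_one]
    refine prod_le_prod (fun _ _ => by positivity) fun j _ => ?_
    have := le_max_left 1 |z j|
    have := le_max_right 1 |z j|
    by_cases h : j ∈ S <;> simp only [mw, h, sg, Fintype.sum_bool, if_true, if_false,
      Algebra.algebraMap_self, RingHom.id_apply, Bool.false_eq_true]
    · norm_num
    · cases abs_cases (1 / 2 + -1 / 2 * z j) <;> cases abs_cases (1 / 2 + 1 / 2 * z j) <;>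
        cases abs_cases (z j) <;> linarith

lemma mw_PW {z : J → ℝ} (hz : ∀ j, |z j| ≤ 1) (j : J) : PW (mw ∅ z j) := by
  refine ⟨fun b => ?_, by simpa using sum_mw ∅ z j⟩
  have := abs_le.1 (hz j)
  cases b <;> simp [mw, sg] <;> linarith

lemma ml_chi (S S' : Finset J) (z : J → ℝ) (h : #S' = #S) :
    ml S (fun y => ∏ j ∈ S', sg (y j)) z = if S = S' then 1 else 0 := by
  have : ml S (fun y => ∏ j ∈ S', sg (y j)) z =
      pw (fun j b => mw S z j b * if j ∈ S' then sg b else 1) fun _ => 1 := by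
    simp only [ml, pw, prod_mul_distrib]
    simp
  rw [this, pw_const, mul_one]
  split_ifs with h1
  · refine prod_eq_one fun j _ => ?_
    by_cases h2 : j ∈ S <;> simp [← h1, mw, h2, sg] <;> ring
  · obtain ⟨j, h2, h3⟩ := not_subset.1 fun h2 => h1 (eq_of_subset_of_card_le h2 h.le)
    exact prod_eq_zero (mem_univ j) (by simp [mw, h2, h3, sg]; ring)

/-- functions computed by decision trees of depth `d` with values in `[-1,1]` -/
def DT : ℕ → ((J → Bool) → ℝ) → Prop
  | 0, g => ∃ c, |c| ≤ 1 ∧ ∀ y, g y = c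
  | d + 1, g => ∃ j, ∀ b, DT d fun y => g (update y j b)

lemma DT.bdd : ∀ {d : ℕ} {g : (J → Bool) → ℝ}, DT d g → ∀ y, |g y| ≤ 1
  | 0, _, ⟨_, h1, h⟩, y => h y ▸ h1
  | _ + 1, _, ⟨j, h⟩, y => by simpa using (h (y j)).bdd y

lemma taylor2 (a x : ℝ) (n : ℕ) : |(a + x) ^ (n + 2) - a ^ (n + 2) - (n + 2) * a ^ (n + 1) * x| ≤
    (n + 2) ^ 2 * (x ^ 2 * (|a| + |x|) ^ n) := by
  induction n with
  | zero =>
    rw [show (a + x) ^ (0 + 2) - a ^ (0 + 2) - ((0 : ℕ) + 2) * a ^ (0 + 1) * x = x ^ 2 by
      push_cast; ring, abs_sq]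
    simp; nlinarith [sq_nonneg x]
  | succ n ih =>
    rw [show (a + x) ^ (n + 1 + 2) - a ^ (n + 1 + 2) - ((n + 1 : ℕ) + 2) * a ^ (n + 1 + 1) * x =
      (a + x) * ((a + x) ^ (n + 2) - a ^ (n + 2) - (n + 2) * a ^ (n + 1) * x) +
        (n + 2) * (x ^ 2 * a ^ (n + 1)) by push_cast; ring]
    refine (abs_add_le _ _).trans ?_
    rw [abs_mul, abs_mul, abs_mul, abs_pow a, abs_sq, abs_of_nonneg (by positivity : 0 ≤ (n + 2 : ℝ))]
    have a1 := mul_le_mul (abs_add_le a x) ih (abs_nonneg _) (by positivity)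
    have a2 : x ^ 2 * |a| ^ (n + 1) ≤ x ^ 2 * (|a| + |x|) ^ (n + 1) := by
      gcongr; linarith [abs_nonneg x]
    have a3 : 0 ≤ x ^ 2 * (|a| + |x|) ^ (n + 1) := by positivity
    rw [mul_left_comm, mul_left_comm _ (x ^ 2), ← pow_succ'] at a1
    push_cast
    nlinarith [mul_le_mul_of_nonneg_left a2 (by positivity : 0 ≤ (n + 2 : ℝ)),
      mul_nonneg n.cast_nonneg a3]

lemma taylor3 (a x : ℝ) {n : ℕ} (hn : Even (n + 2)) {T : ℝ} (hT : 1 ≤ T) :
    (a + x) ^ (n + 2) ≤ (1 + (n + 2) ^ 2 * 2 ^ (n + 2) / T ^ 2) * a ^ (n + 2) +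
      (n + 2) * a ^ (n + 1) * x + (n + 2) ^ 2 * (2 * T) ^ (n + 2) * x ^ (n + 2) := by
  have a1 := (abs_le.1 (taylor2 a x n)).2
  have a2 : x ^ 2 * (|a| + |x|) ^ n ≤ 2 ^ (n + 2) / T ^ 2 * a ^ (n + 2) +
      (2 * T) ^ (n + 2) * x ^ (n + 2) := by
    rw [← hn.pow_abs a, ← hn.pow_abs x, ← sq_abs x]
    have x0 := abs_nonneg x
    have a0 := abs_nonneg a
    generalize |x| = x at *
    generalize |a| = a at *
    rcases le_total (x * T) a with h | h
    · refine le_add_of_le_of_nonneg ?_ (by positivity)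
      rw [div_mul_eq_mul_div, le_div_iff₀ (by positivity), ← mul_pow 2, mul_right_comm, ← mul_pow x,
        pow_add, mul_comm]
      exact mul_le_mul (pow_le_pow_left₀ (by positivity) (by nlinarith) _)
        (pow_le_pow_left₀ (by positivity) (by linarith) _) (by positivity) (by positivity)
    · refine le_add_of_nonneg_of_le (by positivity) ?_
      rw [← mul_pow, pow_add, mul_comm]
      gcongr <;> nlinarith
  rw [mul_div_assoc]
  linarith [mul_le_mul_of_nonneg_left a2 (sq_nonneg (n + 2 : ℝ))]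

theorem DT.bound {z : J → ℝ} (hz : ∀ j, |z j| ≤ 1 / 2) {n : ℕ} (hn : Even (n + 2)) {T : ℝ}
    (hT : 1 ≤ T) : ∀ {d : ℕ} {g : (J → Bool) → ℝ}, DT d g → ∀ m : Finset J → ℝ,
      (∑ S, m S * ml S g z) ^ (n + 2) ≤ (1 + (n + 2) ^ 2 * 2 ^ (n + 2) / T ^ 2) ^ d *
        ∑ S, ((n + 2) ^ 2 * (4 * T) ^ (n + 2)) ^ #S * m S ^ (n + 2)
  | 0, g, ⟨c, h1, h⟩, m => by
    have e : ∀ S, ml S g z = if S = ∅ then c else 0 := fun S => by
      simp only [ml, h, pw_const, sum_mw]
      split_ifs with hS
      · simp [hS]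
      · obtain ⟨j, hj⟩ := nonempty_iff_ne_empty.2 hS
        rw [prod_eq_zero (mem_univ j) (by exact if_pos hj), zero_mul]
    simp only [e, mul_ite, mul_zero, sum_ite_eq', mem_univ, if_true, pow_zero, one_mul]
    refine le_trans ?_ (single_le_sum (fun S _ => mul_nonneg (by positivity)
      (hn.pow_nonneg _)) (mem_univ ∅))
    rw [card_empty, pow_zero, one_mul, mul_pow, ← hn.pow_abs c]
    exact mul_le_of_le_one_right (hn.pow_nonneg _) (pow_le_one₀ (abs_nonneg _) h1)
  | d + 1, g, ⟨j, h⟩, m => by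
    have sp : ∀ F : Finset J → ℝ, ∑ S, F S = ∑ S ∈ powerset (univ.erase j), F S +
        ∑ S ∈ powerset (univ.erase j), F (insert j S) := fun F => by
      rw [← sum_powerset_insert (notMem_erase j _), insert_erase (mem_univ j), powerset_univ]
    have nm : ∀ S ∈ powerset (univ.erase j), j ∉ S := fun S hS h =>
      notMem_erase j _ (mem_powerset.1 hS h)
    have z1 := abs_le.1 (hz j)
    set P : Bool → ℝ := fun b => 1 / 2 + sg b / 2 * z j with hP
    have P0 : ∀ b, 1 / 4 ≤ P b := fun b => by cases b <;> simp only [P, sg] <;> norm_num <;> linarith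
    have P1 : P true + P false = 1 := by simp only [P, sg]; norm_num; ring
    set m' : Bool → Finset J → ℝ := fun b S =>
      if j ∈ S then 0 else m S + sg b / 2 / P b * m (insert j S) with hm
    have e : ∑ S, m S * ml S g z = P true * ∑ S, m' true S * ml S (fun y => g (update y j true)) z
        + P false * ∑ S, m' false S * ml S (fun y => g (update y j false)) z := by
      simp only [sp, hm, mem_insert_self, if_true, zero_mul, sum_const_zero, add_zero, mul_sum,
        ← sum_add_distrib]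
      refine sum_congr rfl fun S hS => ?_
      have hS := nm S hS
      have s1 : ∑ b, mw S z j b = 1 := by rw [sum_mw, if_neg hS]
      have e1 := pw_update' s1 (mw S z j) fun y => g y
      rw [update_eq_self] at e1
      have e2 := pw_update' s1 (fun b => sg b / 2) fun y => g y
      simp only [ml, mw_insert, Algebra.algebraMap_self, RingHom.id_apply, e2, if_neg hS]
      rw [e1]
      have p1 : P true ≠ 0 := by linarith [P0 true]
      have p2 : P false ≠ 0 := by linarith [P0 false]
      simp only [Fintype.sum_bool, show ∀ b, mw S z j b = P b from fun b => if_neg hS]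
      field_simp
      ring
    have t0 : 0 ≤ P true := by linarith [P0 true]
    have f0 : 0 ≤ P false := by linarith [P0 false]
    rw [e]
    refine (hn.convexOn_pow.2 (Set.mem_univ _) (Set.mem_univ _) t0 f0 P1).trans ?_
    simp only [smul_eq_mul]
    refine (add_le_add (mul_le_mul_of_nonneg_left ((h true).bound hz hn hT _) t0)
      (mul_le_mul_of_nonneg_left ((h false).bound hz hn hT _) f0)).trans ?_
    rw [mul_left_comm, mul_left_comm (P false), ← mul_add, pow_succ _ d, mul_assoc]
    refine mul_le_mul_of_nonneg_left ?_ (by positivity)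
    simp only [sp, hm, mem_insert_self, if_true, zero_pow (Nat.succ_ne_zero _), mul_zero,
      sum_const_zero, add_zero, mul_sum, ← sum_add_distrib]
    refine sum_le_sum fun S hS => ?_
    have hS := nm S hS
    rw [if_neg hS, if_neg hS, card_insert_of_notMem hS, pow_succ _ #S, mul_assoc, ← mul_add,
      mul_left_comm, mul_left_comm (P false), mul_left_comm _ (_ ^ #S), ← mul_add]
    refine mul_le_mul_of_nonneg_left ?_ (by positivity)
    have k : ∀ b, (n + 2 : ℝ) ^ 2 * (2 * T) ^ (n + 2) * (sg b / 2 / P b * m (insert j S)) ^ (n + 2)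
        ≤ (n + 2) ^ 2 * (4 * T) ^ (n + 2) * m (insert j S) ^ (n + 2) := fun b => by
      rw [mul_assoc, mul_assoc, ← mul_pow, ← mul_assoc (2 * T), mul_pow _ (m _)]
      refine mul_le_mul_of_nonneg_left (mul_le_mul_of_nonneg_right ?_ (hn.pow_nonneg _))
        (by positivity)
      rw [← hn.pow_abs]
      refine pow_le_pow_left₀ (abs_nonneg _) ?_ _
      have := P0 b
      rw [abs_mul, abs_div, abs_div, sg_abs, abs_of_pos (show 0 < P b by linarith), abs_two,
        abs_of_pos (show 0 < 2 * T by linarith), ← mul_div_assoc, div_le_iff₀ (by linarith)]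
      nlinarith
    have k1 := mul_le_mul_of_nonneg_left ((taylor3 (m S) _ hn hT).trans
      (add_le_add le_rfl (k true))) t0
    have k2 := mul_le_mul_of_nonneg_left ((taylor3 (m S) _ hn hT).trans
      (add_le_add le_rfl (k false))) f0
    refine (add_le_add k1 k2).trans ?_
    have e1 : P true * (sg true / 2 / P true) + P false * (sg false / 2 / P false) = 0 := by
      rw [mul_div_cancel₀ _ (by linarith [P0 true]), mul_div_cancel₀ _ (by linarith [P0 false])]
      norm_num [sg]
    have e2 : 0 ≤ (n + 2 : ℝ) ^ 2 * 2 ^ (n + 2) / T ^ 2 *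
      ((n + 2) ^ 2 * (4 * T) ^ (n + 2) * m (insert j S) ^ (n + 2)) :=
      mul_nonneg (by positivity) (mul_nonneg (by positivity) (hn.pow_nonneg _))
    generalize (n + 2 : ℝ) ^ 2 * (4 * T) ^ (n + 2) * m (insert j S) ^ (n + 2) = B at *
    generalize (n + 2 : ℝ) ^ 2 * 2 ^ (n + 2) / T ^ 2 = L at *
    refine le_of_sub_nonneg (e2.trans_eq ?_)
    linear_combination ((1 + L) * m S ^ (n + 2) + B) * P1 +
      (n + 2) * m S ^ (n + 1) * m (insert j S) * e1

end Crest.Agent.H5.QQ
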