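import Mathlib
import Crest.Agent.H5.QQ.G1

/-!
Gaussian integration by parts for polynomials, rotation invariance, tails.
-/

set_option autoImplicit false
set_option linter.unusedSectionVars false

namespace Crest.Agent.H5.QQ

open Finset Function MeasureTheory ProbabilityTheory MvPolynomial Matrix

/-- Gaussian moments -/
noncomputable def mom (n : ℕ) : ℝ := ∫ x, x ^ n ∂gaussianReal 0 1

lemma int_pow (n : ℕ) : Integrable (fun x : ℝ => x ^ n) (gaussianReal 0 1) :=
  integrable_pow_of_mem_interior_integrableExpSet (X := fun x => x) (by simp) n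

lemma mom_succ (n : ℕ) : mom (n + 1) = n * mom (n - 1) := by
  set f : ℝ → ℝ := fun t => Real.exp (t ^ 2 / 2) with hf
  have e : ∀ n, mom n = iteratedDeriv n f 0 := fun n => by
    have := iteratedDeriv_mgf_zero (X := id) (μ := gaussianReal 0 1) (by simp) n
    rw [mgf_id_gaussianReal] at this
    simpa [mom, hf] using this.symm
  have c : ContDiff ℝ ⊤ f := by fun_prop
  have d : deriv f = fun t => t * f t := by
    ext t
    have := (((hasDerivAt_pow 2 t).div_const 2).exp).deriv
    simp only [hf, this]; simp; ring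
  rw [e, e, iteratedDeriv_succ', d, iteratedDeriv_fun_mul (by fun_prop) (by fun_prop)]
  rcases n with _ | n
  · simp
  · rw [sum_range_succ', sum_range_succ', sum_eq_zero fun i _ => by
      simp [iteratedDeriv_succ', iteratedDeriv_const]]
    simp

lemma mom_le (r : ℕ) : mom (2 * r) ≤ (2 * r) ^ r := by
  induction r with
  | zero => simp [mom]
  | succ r ih =>
    rw [show 2 * (r + 1) = 2 * r + 1 + 1 by ring, mom_succ, Nat.add_sub_cancel, pow_succ']
    push_cast
    exact mul_le_mul (by linarith) (ih.trans (by gcongr; linarith))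
      (integral_nonneg fun x => (even_two_mul r).pow_nonneg x) (by positivity)

variable {V : Type} [Fintype V] [DecidableEq V]

/-- standard Gaussian -/
noncomputable def γ (V : Type) [Fintype V] : Measure (V → ℝ) := Measure.pi fun _ => gaussianReal 0 1

instance : IsProbabilityMeasure (γ V) := by unfold γ; infer_instance

/-- evaluation point -/
def ev (t : ℝ) (ω : V → ℝ) : Option V → ℝ := fun o => o.elim t ω

lemma aeval_mono (t : ℝ) (ω : V → ℝ) (m : Option V →₀ ℕ) (c : ℝ) :
    aeval (ev t ω) (monomial m c) = c * t ^ m none * ∏ v, ω v ^ m (some v) := by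
  rw [aeval_monomial, Finsupp.prod_fintype _ _ (by simp), Fintype.prod_option, mul_assoc]
  rfl

lemma int_poly (t : ℝ) (p : MvPolynomial (Option V) ℝ) :
    Integrable (fun ω => aeval (ev t ω) p) (γ V) := by
  induction p using MvPolynomial.induction_on' with
  | monomial m c =>
    simp only [aeval_mono]
    exact (Integrable.fintype_prod fun v => int_pow (m (some v))).const_mul _
  | add p q hp hq => simp only [map_add]; exact hp.add hq

/-- Gaussian expectation of a polynomial -/
noncomputable def EE (t : ℝ) : MvPolynomial (Option V) ℝ →ₗ[ℝ] ℝ where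
  toFun p := ∫ ω, aeval (ev t ω) p ∂γ V
  map_add' p q := by simp only [map_add, integral_add (int_poly t p) (int_poly t q)]
  map_smul' c p := by simp only [map_smul, smul_eq_mul, integral_const_mul, RingHom.id_apply]

lemma EE_mono (t : ℝ) (m : Option V →₀ ℕ) (c : ℝ) :
    EE t (monomial m c) = c * t ^ m none * ∏ v, mom (m (some v)) := by
  simp only [EE, LinearMap.coe_mk, AddHom.coe_mk, aeval_mono, integral_const_mul, γ, mom]
  rw [integral_fintype_prod_eq_prod fun v (x : ℝ) => x ^ m (some v)]

lemma EE_C (t c : ℝ) (p : MvPolynomial (Option V) ℝ) : EE t (C c * p) = c * EE t p := by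
  rw [C_mul', map_smul, smul_eq_mul]

lemma stein (t : ℝ) (v : V) (p : MvPolynomial (Option V) ℝ) :
    EE t (X (some v) * p) = EE t (pderiv (some v) p) := by
  induction p using MvPolynomial.induction_on' with
  | monomial m c =>
    rw [pderiv_monomial, X, monomial_mul, EE_mono, EE_mono, ← mul_prod_erase _ _ (mem_univ v),
      ← mul_prod_erase _ _ (mem_univ v), prod_congr (g := fun w => mom (m (some w))) rfl
        fun w hw => by simp [Finsupp.single_eq_of_ne, ne_of_mem_erase hw],
      prod_congr (f := fun w => mom ((m - Finsupp.single (some v) 1 : Option V →₀ ℕ) (some w)))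
        (g := fun w => mom (m (some w))) rfl
        fun w hw => by simp [Finsupp.single_eq_of_ne, ne_of_mem_erase hw]]
    simp [add_comm 1, mom_succ]
    ring
  | add p q hp hq => simp only [mul_add, map_add, hp, hq]

lemma EE_deriv (t : ℝ) (p : MvPolynomial (Option V) ℝ) :
    HasDerivAt (fun t => EE t p) (EE t (pderiv none p)) t := by
  induction p using MvPolynomial.induction_on' with
  | monomial m c =>
    simp only [pderiv_monomial, EE_mono]
    refine (((hasDerivAt_pow (m none) t).const_mul c).mul_const _).congr_deriv ?_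
    simp [mul_assoc]
  | add p q hp hq => simp only [map_add]; exact hp.add hq

lemma rot {M : Matrix V V ℝ} (hM : Mᵀ * M = 1) : MeasurePreserving (M *ᵥ ·) (γ V) (γ V) := by
  have hm : Measurable fun ω : V → ℝ => M *ᵥ ω := by fun_prop
  refine ⟨hm, ?_⟩
  let L : EuclideanSpace ℝ V →ₗᵢ[ℝ] EuclideanSpace ℝ V :=
    LinearMap.isometryOfInner (Matrix.toEuclideanLin M) fun x y => by
      simp [EuclideanSpace.inner_eq_star_dotProduct, dotProduct_mulVec, vecMul_mulVec, hM]
  have := stdGaussian_map (L.toLinearIsometryEquiv rfl)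
  rw [← map_pi_eq_stdGaussian, Measure.map_map (by fun_prop) (by fun_prop)] at this
  refine (MeasurableEquiv.toLp 2 (V → ℝ)).map_measurableEquiv_injective ?_
  rw [Measure.map_map (by fun_prop) hm]
  exact this

lemma tail_int {e : ℝ} {r : ℕ} (he : e ^ 2 * r ≤ 1 / 32) :
    Integrable (fun x : ℝ => (1 + (2 * (e * x)) ^ (2 * r)) ^ 2) (gaussianReal 0 1) ∧
    ∫ x, (1 + (2 * (e * x)) ^ (2 * r)) ^ 2 ∂gaussianReal 0 1 ≤ 1 + 3 / 4 ^ r := by
  have e1 : ∀ x : ℝ, (1 + (2 * (e * x)) ^ (2 * r)) ^ 2 = 1 + (2 * (4 * e ^ 2) ^ r * x ^ (2 * r) +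
      (4 * e ^ 2) ^ (2 * r) * x ^ (2 * (2 * r))) := fun x => by
    rw [show 4 * e ^ 2 = (2 * e) ^ 2 by ring, ← pow_mul, ← pow_mul]; ring
  have i1 := (int_pow (2 * r)).const_mul (2 * (4 * e ^ 2) ^ r)
  have i2 := (int_pow (2 * (2 * r))).const_mul ((4 * e ^ 2) ^ (2 * r))
  simp only [e1]
  refine ⟨(integrable_const _).add (i1.add i2), ?_⟩
  rw [integral_add (integrable_const _) (by exact i1.add i2), integral_add i1 i2, integral_const_mul,
    integral_const_mul]
  have a1 : (4 * e ^ 2) ^ r * mom (2 * r) ≤ (1 / 4) ^ r := by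
    refine (mul_le_mul_of_nonneg_left (mom_le r) (by positivity)).trans ?_
    rw [← mul_pow]
    exact pow_le_pow_left₀ (by positivity) (by linarith) _
  have a2 : (4 * e ^ 2) ^ (2 * r) * mom (2 * (2 * r)) ≤ (1 / 4) ^ r := by
    refine (mul_le_mul_of_nonneg_left (mom_le (2 * r)) (by positivity)).trans ?_
    rw [← mul_pow, show (1 / 4 : ℝ) = (1 / 2) ^ 2 by norm_num, ← pow_mul]
    exact pow_le_pow_left₀ (by positivity) (by push_cast; linarith) _
  rw [_root_.one_div_pow] at a1 a2
  simp only [mom] at a1 a2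
  simp only [integral_const, probReal_univ, smul_eq_mul, mul_one, mul_assoc 2]
  rw [show (3 : ℝ) / 4 ^ r = 3 * (1 / 4 ^ r) by ring]
  linarith

end Crest.Agent.H5.QQ
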