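import Mathlib
import Crest.Agent.H5.QQ.G2

/-!
The hard distribution for iterated forrelation.
-/

set_option autoImplicit false
set_option linter.unusedSectionVars false

namespace Crest.Agent.H5.QQ

open Finset Function MeasureTheory ProbabilityTheory MvPolynomial Matrix

variable {G : Type} [Fintype G] [DecidableEq G] {K : ℕ}

lemma sum_update {I : Type} [Fintype I] [DecidableEq I] (b : I) (T : (I → G) → ℝ) :
    ∑ π, ∑ j, T (update π b j) = Fintype.card G * ∑ π, T π := by
  rw [← Fintype.sum_prod_type', ← Equiv.sum_comp (Involutive.toPerm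
    (fun p : (I → G) × G => (update p.1 b p.2, p.1 b)) fun p => by simp), Fintype.sum_prod_type]
  simp [mul_sum]

/-- weight of a path -/
def pa (H : Matrix G G ℝ) (π : Fin (K + 1) → G) : ℝ := ∏ r : Fin K, H (π r.succ) (π r.castSucc)

/-- graph of a path -/
def gr (π : Fin (K + 1) → G) : Finset (Fin (K + 1) × G) := {j | π j.1 = j.2}

lemma path_sum [Nonempty G] (H : Matrix G G ℝ) (Q : Fin (K + 1) → G → Finset (Fin (K + 1) × G) → ℝ)
    (ε : ℝ) (hQ : ∀ (r : Fin K) i S, (r.succ, i) ∈ S → (∀ j ∈ S, r.succ ≤ j.1) →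
      Q r.succ i S = ε * ∑ j, H i j * Q r.castSucc j (insert (r.castSucc, j) S)) :
    ∑ i, Q (Fin.last K) i {(Fin.last K, i)} = ε ^ K * ∑ π, pa H π * Q 0 (π 0) (gr π) := by
  set N := (Fintype.card G : ℝ) with hN
  have N0 : 0 < N := by simp [hN, Fintype.card_pos]
  set A : Fin (K + 1) → (Fin (K + 1) → G) → ℝ := fun l π =>
    (∏ r : Fin K, if l ≤ r.castSucc then H (π r.succ) (π r.castSucc) else 1) *
      Q l (π l) {j | l ≤ j.1 ∧ π j.1 = j.2} with hA
  have key : ∀ l : Fin (K + 1), ∑ π, A l π = (ε * N) ^ (l : ℕ) * ∑ π, A 0 π := by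
    intro l
    induction l using Fin.induction with
    | zero => simp
    | succ r ih =>
      rw [Fin.val_succ, pow_succ', mul_assoc, ← Fin.val_castSucc, ← ih, mul_assoc,
        ← sum_update r.castSucc, mul_sum]
      refine sum_congr rfl fun π _ => ?_
      simp only [hA]
      rw [hQ r _ _ (by simp) (by simp +contextual), mul_left_comm, mul_sum]
      refine congrArg _ (sum_congr rfl fun j _ => ?_)
      rw [update_self, ← mul_assoc, ← mul_prod_erase _ _ (mem_univ r),
        ← mul_prod_erase _ _ (mem_univ r), if_pos le_rfl, if_neg (by simp), update_self,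
        update_of_ne r.castSucc_lt_succ.ne', one_mul, mul_comm (H _ _)]
      congr 2
      · refine prod_congr rfl fun s hs => ?_
        have hs := ne_of_mem_erase hs
        by_cases h : r < s
        · rw [if_pos (by simpa using h), if_pos (by simpa using h.le),
            update_of_ne (by simp only [ne_eq, Fin.ext_iff, Fin.val_succ, Fin.val_castSucc]; omega),
            update_of_ne (by simpa using h.ne')]
        · rw [if_neg (by simpa using h), if_neg (by simpa using lt_of_le_of_ne (not_lt.1 h) hs)]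
      · ext ⟨l, i⟩
        by_cases h : l = r.castSucc
        · simp [h, eq_comm]
        · simp only [mem_insert, Prod.mk.injEq, h, false_and, false_or, mem_filter, mem_univ,
            true_and, update_of_ne h]
          refine and_congr_left fun _ => ?_
          simp only [Fin.le_def, Fin.ext_iff, Fin.val_succ, Fin.val_castSucc] at h ⊢
          omega
  have e1 := key (Fin.last K)
  have e2 : ∀ π, A (Fin.last K) π = Q (Fin.last K) (π (Fin.last K)) {(Fin.last K, π (Fin.last K))} :=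
    fun π => by
      simp only [hA]
      rw [prod_eq_one fun r _ => if_neg (by simp), one_mul]
      congr 1
      ext ⟨l, i⟩
      simp only [mem_filter, mem_univ, true_and, mem_singleton, Prod.mk.injEq, Fin.last_le_iff]
      exact and_congr_right fun h => by rw [h, eq_comm]
  have e3 := sum_update (Fin.last K) (A (Fin.last K))
  simp only [e2, update_self, sum_const, card_univ, Fintype.card_fun, Fintype.card_fin,
    nsmul_eq_mul, Nat.cast_pow, ← hN] at e3 e1
  rw [e1, pow_succ', mul_assoc, mul_right_inj' N0.ne', mul_pow, Fin.val_last, mul_right_comm,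
    mul_comm, mul_left_inj' (by positivity)] at e3
  simpa [hA, pa, gr] using e3

/-- the top level functional -/
noncomputable def Lam (H : Matrix G G ℝ) (g : (Fin (K + 1) × G → Bool) → ℝ)
    (z : Fin (K + 1) × G → ℝ) : ℝ := ∑ π, pa H π * ml (gr π) g z

lemma gr_inj : Injective (gr : (Fin (K + 1) → G) → _) := fun π π' h => funext fun l => by
  have : (l, π l) ∈ gr π' := h ▸ by simp [gr]
  simpa [gr, eq_comm] using this

lemma gr_card (π : Fin (K + 1) → G) : #(gr π) = K + 1 := by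
  rw [show gr π = univ.image fun l => (l, π l) by ext ⟨l, i⟩; simp [gr],
    card_image_of_injective _ fun _ _ h => (Prod.mk.inj h).1, card_univ, Fintype.card_fin]

lemma pa_sq {H : Matrix G G ℝ} {h : ℝ} (hh : ∀ i j, H i j ^ 2 = h) (π : Fin (K + 1) → G) :
    pa H π ^ 2 = h ^ K := by simp [pa, ← prod_pow, hh]

lemma Lam_DT {H : Matrix G G ℝ} {s : ℝ} (s0 : 0 < s) (hs : s ^ 2 = Fintype.card G)
    (hh : ∀ i j, H i j ^ 2 = (s ^ 2)⁻¹) {τ : ℝ} (hτ : 1 ≤ τ) {D : ℕ} (hD : D ≤ τ ^ 2)
    {g : (Fin (K + 1) × G → Bool) → ℝ} (hg : DT D g) {z : Fin (K + 1) × G → ℝ}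
    (hz : ∀ j, |z j| ≤ 1 / 2) :
    |Lam H g z| ≤ 2 * (4 * (2 * K + 2) * ((2 * K + 2) * 2 ^ (K + 1) * τ)) ^ (K + 1) * s / s ^ K := by
  have k0 : (0 : ℝ) ≤ K := K.cast_nonneg
  have hT : 1 ≤ (2 * K + 2 : ℝ) * 2 ^ (K + 1) * τ := one_le_mul_of_one_le_of_one_le
    (one_le_mul_of_one_le_of_one_le (by linarith) (one_le_pow₀ one_le_two)) hτ
  have ev : Even (2 * K + 2) := ⟨K + 1, by ring⟩
  have b := hg.bound hz ev hT fun S => ∑ π, if gr π = S then pa H π else 0
  have e1 : ∑ S, (∑ π, if gr π = S then pa H π else 0) * ml S g z = Lam H g z := by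
    simp only [sum_mul]
    rw [sum_comm]
    simp [Lam]
  rw [e1, ← sum_of_injOn (s := univ) gr gr_inj.injOn (fun _ _ => mem_univ _) (f := fun _ =>
    (((2 * K : ℕ) + 2) ^ 2 * (4 * ((2 * K + 2) * 2 ^ (K + 1) * τ)) ^ (2 * K + 2)) ^ (K + 1) *
      ((s ^ 2)⁻¹ ^ K) ^ (K + 1)) (fun S _ hS => by
      rw [sum_eq_zero fun π _ => if_neg fun h => hS ⟨π, by simp, h⟩]; simp)
    (fun π _ => by
      simp only [gr_inj.eq_iff, sum_ite_eq', mem_univ, if_true, gr_card]
      rw [← pa_sq hh π, ← pow_mul (pa H π)]; rfl)] at b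
  rw [← pow_le_pow_iff_left₀ (abs_nonneg _) (by positivity) (show 2 * K + 2 ≠ 0 by omega),
    ev.pow_abs]
  refine b.trans ?_
  simp only [sum_const, card_univ, Fintype.card_fun, Fintype.card_fin, nsmul_eq_mul, Nat.cast_pow,
    ← hs]
  push_cast
  have a1 : (1 + (2 * K + 2 : ℝ) ^ 2 * 2 ^ (2 * K + 2) / ((2 * K + 2) * 2 ^ (K + 1) * τ) ^ 2) ^ D ≤
      2 ^ (2 * K + 2) := by
    rw [show (2 * K + 2 : ℝ) ^ 2 * 2 ^ (2 * K + 2) / ((2 * K + 2) * 2 ^ (K + 1) * τ) ^ 2 =
      1 / τ ^ 2 by field_simp; ring, add_comm]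
    refine (pow_le_pow_left₀ (by positivity) (Real.add_one_le_exp _) _).trans ?_
    rw [← Real.exp_nat_mul, pow_add]
    refine (Real.exp_le_exp.2 (show _ ≤ 1 by rwa [mul_one_div, div_le_one (by positivity)])).trans ?_
    nlinarith [Real.exp_one_lt_three, one_le_pow₀ (n := 2 * K) (one_le_two (α := ℝ))]
  generalize (2 * K + 2 : ℝ) * 2 ^ (K + 1) * τ = T at *
  have a2 : (2 * K + 2 : ℝ) ^ 2 ≤ (2 * K + 2) ^ (2 * K + 2) :=
    pow_le_pow_right₀ (by linarith) (by omega)
  calc _ ≤ 2 ^ (2 * K + 2) * ((s ^ 2) ^ (K + 1) * (((2 * K + 2) ^ (2 * K + 2) *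
        (4 * T) ^ (2 * K + 2)) ^ (K + 1) * ((s ^ 2)⁻¹ ^ K) ^ (K + 1))) := by gcongr
    _ = _ := by
      simp only [mul_pow, div_pow, inv_pow, ← pow_mul]
      ring

section chain
variable (H : Matrix G G ℝ) (e : ℝ)

/-- first factor -/
noncomputable def Xf (l : Fin (K + 1)) (i : G) : MvPolynomial (Option (Fin K × G)) ℝ :=
  Fin.cases 1 (fun r => C e * X (some (r, i))) l

/-- second factor -/
noncomputable def Yf (l : Fin (K + 1)) (i : G) : MvPolynomial (Option (Fin K × G)) ℝ :=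
  Fin.lastCases (X none) (fun r => C e * ∑ i', C (H i' i) * X (some (r, i'))) l

/-- the biases -/
noncomputable def ZZ (j : Fin (K + 1) × G) : MvPolynomial (Option (Fin K × G)) ℝ :=
  Yf H e j.1 j.2 * Xf e j.1 j.2

lemma dZ (r : Fin K) (i : G) (j : Fin (K + 1) × G) (hj : j ≠ (r.succ, i)) :
    pderiv (some (r, i)) (ZZ H e j) =
      if j.1 = r.castSucc then C (e * H i j.2) * Xf e j.1 j.2 else 0 := by
  obtain ⟨l, k⟩ := j
  have e1 : pderiv (some (r, i)) (Xf e l k) = 0 := by
    induction l using Fin.cases with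
    | zero => simp [Xf]
    | succ l =>
      simp only [Xf, Fin.cases_succ, pderiv_C_mul]
      rw [pderiv_X_of_ne (by simpa using hj), mul_zero]
  rw [ZZ, pderiv_mul, e1, mul_zero, add_zero]
  induction l using Fin.lastCases with
  | last => simp [Yf, (Fin.castSucc_lt_last r).ne']
  | cast l =>
    simp only [Yf, Fin.lastCases_castSucc, pderiv_C_mul, map_sum, pderiv_X, Pi.single_apply]
    by_cases h : l = r <;> simp [h]

lemma dZ0 (j : Fin (K + 1) × G) :
    pderiv none (ZZ H e j) = if j.1 = Fin.last K then Xf e j.1 j.2 else 0 := by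
  obtain ⟨l, k⟩ := j
  have e1 : pderiv none (Xf e l k) = 0 := by
    induction l using Fin.cases <;> simp [Xf]
  rw [ZZ, pderiv_mul, e1, mul_zero, add_zero]
  induction l using Fin.lastCases with
  | last => simp [Yf]
  | cast l => simp [Yf, (Fin.castSucc_lt_last l).ne]

lemma chain [Nonempty G] (g : (Fin (K + 1) × G → Bool) → ℝ) (t : ℝ) :
    HasDerivAt (fun t => EE t (ml ∅ g (ZZ H e)))
      ((e ^ 2) ^ K * ∫ ω, Lam H g (fun j => aeval (ev t ω) (ZZ H e j)) ∂γ _) t := by
  refine (EE_deriv t _).congr_deriv ?_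
  have := path_sum H (fun l i S => EE t (Xf e l i * ml S g (ZZ H e))) (e ^ 2) fun r i S h1 h2 => by
    simp only [Xf, Fin.cases_succ, mul_assoc, EE_C, stein, der_ml]
    rw [sum_congr (g := fun j => if j.1 = r.castSucc then C (e * H i j.2) *
      (Xf e j.1 j.2 * ml (insert j S) g (ZZ H e)) else 0) rfl fun j _ => by
        split_ifs with h3 h4 h4
        · exact absurd (h4 ▸ h2 j h3) (by simp)
        · rfl
        · rw [dZ H e r i j fun h => h3 (h ▸ h1), if_pos h4, mul_assoc]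
        · rw [dZ H e r i j fun h => h3 (h ▸ h1), if_neg h4, zero_mul]]
    simp only [Fintype.sum_prod_type, sum_ite_irrel, sum_const_zero, sum_ite_eq', mem_univ, if_true,
      map_sum, EE_C, mul_sum, Xf]
    exact sum_congr rfl fun j _ => by ring
  simp only [der_ml, dZ0, notMem_empty, if_false, ite_mul, zero_mul, Fintype.sum_prod_type,
    sum_ite_irrel, sum_const_zero, sum_ite_eq', mem_univ, if_true, map_sum, insert_empty_eq, this]
  congr 1
  simp only [Xf, Fin.cases_zero, one_mul, ← EE_C]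
  rw [← map_sum]
  refine integral_congr_ae (.of_forall fun ω => ?_)
  simp only [map_sum, map_mul, map_ml, aeval_C, Lam]
  rfl

end chain

lemma prod_max {V : Type} [Fintype V] [DecidableEq V] (w : V → ℝ) {r : ℕ} (hr : 1 ≤ r) :
    (∏ v, max 1 |w v| ≤ ∏ v, (1 + (2 * w v) ^ (2 * r))) ∧ ((∃ v, 1 / 2 < |w v|) →
      2 * ∏ v, max 1 |w v| ≤ ∏ v, (1 + (2 * w v) ^ (2 * r))) := by
  have a1 : ∀ v, 1 / 2 < |w v| → 2 * max 1 |w v| ≤ 1 + (2 * w v) ^ (2 * r) := fun v h => by
    rw [pow_mul, mul_pow, ← sq_abs (w v)]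
    have := le_self_pow₀ (show 1 ≤ 2 ^ 2 * |w v| ^ 2 by nlinarith) (show r ≠ 0 by omega)
    rcases le_total 1 |w v| with h1 | h1
    · rw [max_eq_right h1]; nlinarith
    · rw [max_eq_left h1]; nlinarith
  have a2 : ∀ v, max 1 |w v| ≤ 1 + (2 * w v) ^ (2 * r) := fun v => by
    rcases le_total 1 |w v| with h1 | h1
    · linarith [a1 v (by linarith), le_max_left 1 |w v|]
    · rw [max_eq_left h1]; linarith [(even_two_mul r).pow_nonneg (2 * w v)]
  refine ⟨prod_le_prod (fun _ _ => by positivity) fun v _ => a2 v, fun ⟨v, hv⟩ => ?_⟩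
  rw [← mul_prod_erase _ _ (mem_univ v), ← mul_prod_erase _ _ (mem_univ v), ← mul_assoc]
  exact mul_le_mul (a1 v hv) (prod_le_prod (fun _ _ => by positivity) fun v _ => a2 v)
    (by positivity) (by linarith [(even_two_mul r).pow_nonneg (2 * w v)])

theorem hard [Nonempty G] (hK : K ≠ 0) {H : Matrix G G ℝ} (hH : H * Hᵀ = 1) (hh : ∀ i j, |H i j| ≤ 1)
    {e : ℝ} {r : ℕ} (hr : 1 ≤ r) (he : e ^ 2 * r ≤ 1 / 32) {η : ℝ}
    (hη : (1 + 3 / 4 ^ r : ℝ) ^ (K * Fintype.card G) ≤ 1 + η) :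
    ∃ Dw : Bool → (Fin (K + 1) × G → Bool) → ℝ, (∀ σ, PW (Dw σ)) ∧ ∀ g, (∀ y, |g y| ≤ 1) →
      (∀ B, (∀ z, (∀ j, |z j| ≤ 1 / 2) → |Lam H g z| ≤ B) →
        |∑ y, Dw false y * g y - ∑ y, Dw true y * g y| ≤
          2 * (e ^ 2) ^ K * (B + Fintype.card G ^ (K + 1) * η) + 4 * η) ∧
      ((∀ z, Lam H g z = 1) →
        2 * (e ^ 2) ^ K - 4 * η ≤ ∑ y, Dw false y * g y - ∑ y, Dw true y * g y) := by
  classical
  set M : Matrix (Fin K × G) (Fin K × G) ℝ := of fun p q => if p.1 = q.1 then H q.2 p.2 else 0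
    with hM
  have mp : MeasurePreserving (M *ᵥ ·) (γ _) (γ _) := rot (by
    ext ⟨a, i⟩ ⟨b, j⟩
    have := congrFun (congrFun hH i) j
    simp only [mul_apply, transpose_apply, one_apply] at this
    by_cases h : a = b <;> simp [hM, mul_apply, Fintype.sum_prod_type, one_apply, h, this, eq_comm])
  set z : ℝ → (Fin K × G → ℝ) → Fin (K + 1) × G → ℝ := fun t ω j => aeval (ev t ω) (ZZ H e j)
  have hz : ∀ t ω l i, z t ω (l, i) = Fin.lastCases t (fun r => e * (M *ᵥ ω) (r, i)) l *
      Fin.cases 1 (fun r => e * ω (r, i)) l := fun t ω l i => by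
    simp only [z, ZZ, map_mul]
    congr 1
    · induction l using Fin.lastCases <;>
        simp [Yf, ev, hM, mulVec, dotProduct, Fintype.sum_prod_type]
    · induction l using Fin.cases <;> simp [Xf, ev]
  set Gd : Set (Fin K × G → ℝ) := {ω | ∀ v, |e * ω v| ≤ 1 / 2 ∧ |e * (M *ᵥ ω) v| ≤ 1 / 2}
  have mG : MeasurableSet Gd := by
    have := mp.measurable
    measurability
  set θ : (Fin K × G → ℝ) → ℝ := fun ω => ∏ v, (1 + (2 * (e * ω v)) ^ (2 * r)) ^ 2 with hθ
  have iθ : Integrable θ (γ _) := Integrable.fintype_prod fun _ => (tail_int he).1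
  have iθ' : Integrable (fun ω => θ (M *ᵥ ω)) (γ _) := (mp.integrable_comp iθ.1).2 iθ
  set Θ : (Fin K × G → ℝ) → ℝ := fun ω => (θ ω + θ (M *ᵥ ω)) / 2 - 1 with hΘ
  have iΘ : Integrable Θ (γ _) := ((iθ.add iθ').div_const 2).sub (integrable_const _)
  have IΘ : ∫ ω, Θ ω ∂γ _ ≤ η := by
    rw [hΘ, integral_sub (by exact (iθ.add iθ').div_const 2) (integrable_const _), integral_div,
      integral_add iθ iθ', ← integral_map mp.aemeasurable (by rw [mp.map_eq]; exact iθ.1),
      mp.map_eq, hθ, γ, integral_fintype_prod_eq_pow fun x => (1 + (2 * (e * x)) ^ (2 * r)) ^ 2]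
    have := pow_le_pow_left₀ (integral_nonneg fun _ => sq_nonneg _) (tail_int he).2
      (K * Fintype.card G)
    simp
    linarith
  have Θ0 : ∀ ω, 0 ≤ Θ ω := fun ω => by
    have : ∀ ω, 1 ≤ θ ω := fun ω => Finset.one_le_prod fun v _ => one_le_pow₀
      (le_add_of_nonneg_right ((even_two_mul r).pow_nonneg _))
    simp only [hΘ]
    linarith [this ω, this (M *ᵥ ω)]
  have g1 : ∀ t, |t| ≤ 1 → ∀ ω ∈ Gd, ∀ j, |z t ω j| ≤ 1 / 2 := by
    rintro t ht ω hω ⟨l, i⟩
    rw [hz, abs_mul]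
    induction l using Fin.cases with
    | zero =>
      obtain ⟨K, rfl⟩ := Nat.exists_eq_succ_of_ne_zero hK
      rw [Fin.cases_zero, abs_one, mul_one, ← Fin.castSucc_zero, Fin.lastCases_castSucc]
      exact (hω _).2
    | succ l =>
      rw [Fin.cases_succ]
      refine (mul_le_of_le_one_left (abs_nonneg _) ?_).trans (hω _).1
      induction l.succ using Fin.lastCases with
      | last => simpa using ht
      | cast l => rw [Fin.lastCases_castSucc]; linarith [(hω (l, i)).2]
  have g2 : ∀ t, |t| ≤ 1 → ∀ ω ∉ Gd, ∏ j, max 1 |z t ω j| ≤ Θ ω := by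
    intro t ht ω hω
    have a1 : ∏ j, max 1 |z t ω j| ≤ (∏ v, max 1 |e * (M *ᵥ ω) v|) * ∏ v, max 1 |e * ω v| := by
      refine (prod_le_prod (fun _ _ => by positivity) (g := fun j =>
        max 1 |Fin.lastCases t (fun r => e * (M *ᵥ ω) (r, j.2)) j.1| *
        max 1 |Fin.cases 1 (fun r => e * ω (r, j.2)) j.1|) fun j _ => ?_).trans_eq ?_
      · rw [hz, abs_mul]
        exact max_le (one_le_mul_of_one_le_of_one_le (le_max_left _ _) (le_max_left _ _))
          (mul_le_mul (le_max_right _ _) (le_max_right _ _) (abs_nonneg _) (by positivity))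
      · rw [prod_mul_distrib, Fintype.prod_prod_type, Fin.prod_univ_castSucc,
          Fintype.prod_prod_type (α₁ := Fin (K + 1)), Fin.prod_univ_succ]
        simp [max_eq_left ht, Fintype.prod_prod_type]
    have a2 := prod_max (fun v => e * ω v) hr
    have a3 := prod_max (fun v => e * (M *ᵥ ω) v) hr
    have a4 : ∀ w : Fin K × G → ℝ, 1 ≤ ∏ v, max 1 |w v| := fun w =>
      Finset.one_le_prod fun v _ => le_max_left _ _
    have a5 := a4 fun v => e * ω v
    have a6 := a4 fun v => e * (M *ᵥ ω) v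
    simp only [Gd, Set.mem_ofPred_eq, not_forall, not_and_or, not_le] at hω
    simp only [hΘ, hθ, prod_pow]
    generalize ∏ v, max 1 |e * (M *ᵥ ω) v| = B at *
    generalize ∏ v, max 1 |e * ω v| = A at *
    generalize ∏ v, (1 + (2 * (e * (M *ᵥ ω) v)) ^ (2 * r)) = B' at *
    generalize ∏ v, (1 + (2 * (e * ω v)) ^ (2 * r)) = A' at *
    have a7 := one_le_mul_of_one_le_of_one_le a6 a5
    obtain ⟨v, h | h⟩ := hω
    · nlinarith [mul_le_mul (a2.2 ⟨v, h⟩) a3.1 (by linarith) (by linarith [a2.1]),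
        sq_nonneg (A' - B')]
    · nlinarith [mul_le_mul (a3.2 ⟨v, h⟩) a2.1 (by linarith) (by linarith [a3.1]),
        sq_nonneg (A' - B')]
  have IB : ∀ (f : (Fin K × G → ℝ) → ℝ) (b c : ℝ), 0 ≤ c → (∀ ω, |f ω| ≤ b + c * Θ ω) →
      |∫ ω, f ω ∂γ _| ≤ b + c * η := fun f b c c0 hf => by
    have := norm_integral_le_of_norm_le (f := f) ((integrable_const b).add (iΘ.const_mul c))
      (.of_forall hf)
    rw [integral_add' (integrable_const b) (iΘ.const_mul _), integral_const_mul] at this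
    simp only [integral_const, probReal_univ, smul_eq_mul, one_mul, Real.norm_eq_abs] at this
    linarith [mul_le_mul_of_nonneg_left IΘ c0]
  set zc : ℝ → (Fin K × G → ℝ) → Fin (K + 1) × G → ℝ := fun t ω => if ω ∈ Gd then z t ω else 0
    with hzc
  have i1 : ∀ t S g, Integrable (fun ω => ml S g (z t ω)) (γ _) := fun t S g => by
    simpa only [map_ml] using int_poly t (ml S g (ZZ H e))
  have i2 : ∀ t g, Integrable (fun ω => ml ∅ g (zc t ω)) (γ _) := fun t g => by
    simp only [hzc, apply_ite (ml ∅ g)]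
    exact Integrable.piecewise mG (i1 t ∅ g).integrableOn (integrable_const _).integrableOn
  have e1 : ∀ (w : Fin (K + 1) × G → ℝ) y, ∏ j, mw ∅ w j (y j) =
      ml ∅ (fun y' => if y' = y then 1 else 0) w := fun w y => by simp [ml, pw]
  have c1 : ∀ σ ω j, |zc (sg σ) ω j| ≤ 1 := fun σ ω j => by
    simp only [hzc]
    split_ifs with h
    · linarith [g1 _ (sg_abs σ).le ω h j]
    · simp
  have e2 : ∀ t (g : (Fin (K + 1) × G → Bool) → ℝ), ∑ y, (∫ ω, ∏ j, mw ∅ (zc t ω) j (y j) ∂γ _) *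
      g y = ∫ ω, ml ∅ g (zc t ω) ∂γ _ := fun t g => by
    simp only [← integral_mul_const]
    rw [← integral_finsetSum _ fun y _ => by simpa only [e1] using (i2 t _).mul_const _]
    rfl
  refine ⟨fun σ y => ∫ ω, ∏ j, mw ∅ (zc (sg σ) ω) j (y j) ∂γ _, fun σ => ⟨fun y =>
    integral_nonneg fun ω => prod_nonneg fun j _ => (mw_PW (c1 σ ω) j).1 _, ?_⟩, fun g hg => ?_⟩
  · have := e2 (sg σ) fun _ => 1
    simp only [ml, pw_const, sum_mw] at this
    simpa using this
  have t1 : ∀ σ, |∫ ω, ml ∅ g (zc (sg σ) ω) ∂γ _ - EE (sg σ) (ml ∅ g (ZZ H e))| ≤ 2 * η := by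
    intro σ
    simp only [EE, LinearMap.coe_mk, AddHom.coe_mk, map_ml]
    rw [← integral_sub (i2 _ g) (i1 _ ∅ g)]
    refine (IB _ 0 2 zero_le_two fun ω => ?_).trans_eq (zero_add _)
    simp only [hzc]
    split_ifs with h
    · simpa [z] using Θ0 ω
    · have a1 := ml_abs ∅ hg (0 : Fin (K + 1) × G → ℝ)
      have a2 := ml_abs ∅ hg (z (sg σ) ω)
      have a3 : 1 ≤ ∏ j, max 1 |z (sg σ) ω j| := Finset.one_le_prod fun v _ => le_max_left _ _
      simp only [Pi.zero_apply, abs_zero, zero_le_one, max_eq_left, prod_const_one] at a1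
      refine (abs_sub _ _).trans ?_
      linarith [g2 _ (sg_abs σ).le ω h]
  obtain ⟨t, ht, e3⟩ := exists_hasDerivAt_eq_slope _ _ (show (-1 : ℝ) < 1 by norm_num)
    (fun t _ => (chain H e g t).continuousAt.continuousWithinAt) fun t _ => chain H e g t
  have t2 := abs_le.1 (t1 false)
  have t3 := abs_le.1 (t1 true)
  simp only [e2]
  simp only [sg, if_true, if_false, Bool.false_eq_true] at t2 t3 ⊢
  refine ⟨fun B hB => ?_, fun h => ?_⟩
  · have a1 : |∫ ω, Lam H g (z t ω) ∂γ _| ≤ B + Fintype.card G ^ (K + 1) * η := by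
      have ht : |t| ≤ 1 := abs_le.2 ⟨ht.1.le, ht.2.le⟩
      refine IB _ _ _ (by positivity) fun ω => ?_
      by_cases h : ω ∈ Gd
      · exact (hB _ (g1 t ht ω h)).trans (le_add_of_nonneg_right (mul_nonneg (by positivity) (Θ0 ω)))
      · refine le_add_of_nonneg_of_le ((abs_nonneg _).trans (hB 0 (by simp)))
          ((abs_sum_le_sum_abs _ _).trans ((sum_le_card_nsmul _ _ (Θ ω) fun π _ => ?_).trans_eq
          (by simp)))
        rw [abs_mul]
        refine (mul_le_of_le_one_left (abs_nonneg _) ?_).trans ((ml_abs _ hg _).trans (g2 t ht ω h))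
        rw [pa, abs_prod]
        exact prod_le_one (fun _ _ => abs_nonneg _) fun _ _ => hh _ _
    have a2 := abs_le.1 a1
    have a3 := mul_le_mul_of_nonneg_left a2.1 (show 0 ≤ (e ^ 2) ^ K by positivity)
    have a4 := mul_le_mul_of_nonneg_left a2.2 (show 0 ≤ (e ^ 2) ^ K by positivity)
    rw [abs_le]
    constructor <;> linarith
  · simp only [h, integral_const, probReal_univ, smul_eq_mul, mul_one] at e3
    linarith

end Crest.Agent.H5.QQ
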