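import Mathlib
import Crest.Agent.H5.QQ.G3

/-!
Iterated forrelation: path formula, quantum test, fast Fourier transcript.
-/

set_option autoImplicit false
set_option linter.unusedSectionVars false

namespace Crest.Agent.H5.QQ

open Finset Function Matrix

variable {G : Type} [Fintype G] [DecidableEq G] {K : ℕ}

/-- signs of a layer -/
def yy (y : Fin (K + 1) × G → Bool) (l : ℕ) (i : G) : ℝ :=
  if h : l < K + 1 then sg (y (⟨l, h⟩, i)) else 1

lemma yy_val (y : Fin (K + 1) × G → Bool) (l : Fin (K + 1)) (i : G) : yy y l i = sg (y (l, i)) :=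
  dif_pos l.2

/-- the state vectors -/
def uu (H : Matrix G G ℝ) (y : Fin (K + 1) × G → Bool) : ℕ → G → ℝ
  | 0 => 1
  | l + 1 => H *ᵥ fun j => yy y l j * uu H y l j

/-- forrelation -/
noncomputable def phi (H : Matrix G G ℝ) (y : Fin (K + 1) × G → Bool) : ℝ :=
  (Fintype.card G : ℝ)⁻¹ * ∑ i, yy y K i * uu H y K i

lemma Lam_phi [Nonempty G] {H : Matrix G G ℝ} (hh : ∀ i j, H i j ^ 2 = (Fintype.card G : ℝ)⁻¹)
    (z : Fin (K + 1) × G → ℝ) : Lam H (phi H) z = 1 := by
  have e : ∀ y : Fin (K + 1) × G → Bool, phi H y =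
      ∑ π, (Fintype.card G : ℝ)⁻¹ * pa H π * ∏ j ∈ gr π, sg (y j) := fun y => by
    have := path_sum H (fun l i S => (∏ j ∈ S, sg (y j)) * uu H y l i) 1 fun r i S _ h2 => by
      simp only [Fin.val_succ, uu, mulVec, dotProduct, one_mul, mul_sum, Fin.val_castSucc]
      refine sum_congr rfl fun j _ => ?_
      rw [prod_insert fun h => absurd (h2 _ h) (by simp), ← yy_val]
      simp only [Fin.val_castSucc]
      ring
    simp only [prod_singleton, ← yy_val y (Fin.last K), Fin.val_last] at this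
    simp [phi, this, uu, mul_sum, mul_assoc]
  have e2 : ∀ S, ml S (phi H) z = ∑ π, (Fintype.card G : ℝ)⁻¹ * pa H π *
      ml S (fun y => ∏ j ∈ gr π, sg (y j)) z := fun S => by
    simp only [ml, pw, e, Algebra.algebraMap_self, RingHom.id_apply, mul_sum]
    rw [sum_comm]
    exact sum_congr rfl fun _ _ => sum_congr rfl fun _ _ => by ring
  simp only [Lam, e2, ml_chi _ _ z ((gr_card _).trans (gr_card _).symm), gr_inj.eq_iff, mul_ite,
    mul_one, mul_zero, sum_ite_eq, mem_univ, if_true, mul_left_comm (pa H _), ← sq, pa_sq hh]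
  simp
  field_simp
  ring

lemma qu_phi {ι : Type} {H : Matrix G G ℝ} (hH : H * Hᵀ = 1) {h : ℝ} (g0 : G)
    (h1 : ∀ i, H i g0 = h) (h2 : ∀ i, H g0 i = h) (h3 : h ^ 2 = (Fintype.card G : ℝ)⁻¹)
    (loc : Fin (K + 1) × G → ι) : ∃ V : (ι → Bool) → Matrix G G ℂ, QU (K + 1) V ∧
      ∀ x, V x g0 g0 = phi H fun j => x (loc j) := by
  have hU : H.map Complex.ofReal ∈ unitaryGroup G ℂ := by
    rw [mem_unitaryGroup_iff]
    ext i j
    have := congrArg Complex.ofReal (congrFun (congrFun hH i) j)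
    simpa [mul_apply, one_apply, apply_ite Complex.ofReal] using this
  have : ∀ l, ∃ V : (ι → Bool) → Matrix G G ℂ, QU l V ∧
      ∀ x i, V x i g0 = (h * uu H (fun j => x (loc j)) l i : ℝ) := by
    intro l
    induction l with
    | zero => exact ⟨_, QU.const hU, fun x i => by simp [uu, h1]⟩
    | succ l ih =>
      obtain ⟨V, k1, k2⟩ := ih
      refine ⟨_, ⟨_, hU, fun i => if h : l < K + 1 then some (loc (⟨l, h⟩, i)) else none, V, k1,
        fun _ => rfl⟩, fun x i => ?_⟩
      rw [mul_apply]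
      simp only [OO, mul_diagonal, k2, uu, mulVec, dotProduct, mul_sum, Complex.ofReal_sum, yy]
      refine sum_congr rfl fun j _ => ?_
      by_cases hl : l < K + 1
      · cases hx : x (loc (⟨l, hl⟩, j)) <;> simp [hl, hx, sg] <;> ring
      · simp [hl]; ring
  obtain ⟨V, k1, k2⟩ := this (K + 1)
  refine ⟨V, k1, fun x => ?_⟩
  simp only [k2, uu, mulVec, dotProduct, h2, ← mul_sum, phi, ← h3, sq, mul_assoc]

lemma uu_smul (c : ℝ) (H : Matrix G G ℝ) (y : Fin (K + 1) × G → Bool) (l : ℕ) :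
    uu (c • H) y l = c ^ l • uu H y l := by
  induction l with
  | zero => simp [uu]
  | succ l ih =>
    ext i
    simp only [uu, ih, mulVec, dotProduct, Matrix.smul_apply, Pi.smul_apply, smul_eq_mul, mul_sum]
    exact sum_congr rfl fun _ _ => by ring

variable {a : ℕ}

/-- partial Walsh transform -/
def Wt (t : ℕ) : Matrix (Fin a → Bool) (Fin a → Bool) ℝ :=
  of fun i j => ∏ u : Fin a, if u < t then sg (i u && j u) else if i u = j u then 1 else 0

lemma Wt_zero : (Wt 0 : Matrix (Fin a → Bool) _ ℝ) = 1 := by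
  ext i j
  simp [Wt, one_apply, prod_boole, funext_iff]

lemma Wt_top (i j : Fin a → Bool) : Wt a i j = ∏ u, sg (i u && j u) := by simp [Wt]

lemma Wt_succ (t : Fin a) (i j : Fin a → Bool) :
    Wt (t + 1) i j = Wt t (update i t false) j + sg (i t) * Wt t (update i t true) j := by
  have e : ∀ b, Wt t (update i t b) j = (if b = j t then 1 else 0) * ∏ u ∈ univ.erase t,
      if (u : ℕ) < t + 1 then sg (i u && j u) else if i u = j u then 1 else 0 := fun b => by
    rw [Wt, of_apply, ← mul_prod_erase _ _ (mem_univ t), if_neg (lt_irrefl _), update_self]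
    refine congrArg _ (prod_congr rfl fun u hu => ?_)
    have hu := ne_of_mem_erase hu
    rw [update_of_ne hu]
    exact if_congr (by have := Fin.val_ne_of_ne hu; omega) rfl rfl
  rw [e, e, Wt, of_apply, ← mul_prod_erase _ _ (mem_univ t), if_pos (Nat.lt_succ_self _)]
  cases j t <;> simp [sg]

lemma Wt_orth : (Wt a : Matrix (Fin a → Bool) _ ℝ) * (Wt a)ᵀ = (2 ^ a : ℝ) • 1 := by
  ext i j
  simp only [mul_apply, transpose_apply, Wt_top, ← prod_mul_distrib, Matrix.smul_apply, one_apply]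
  rw [← Fintype.piFinset_univ, ← prod_univ_sum (fun _ => univ)
    fun u b => sg (i u && b) * sg (j u && b)]
  rw [prod_congr (g := fun u => 2 * if i u = j u then 1 else 0) rfl fun u _ => by
    cases i u <;> cases j u <;> norm_num [sg], prod_mul_distrib]
  simp [prod_boole, funext_iff]

/-- nodes of the transcript -/
abbrev Nd (K a : ℕ) : Type := Fin (K + 1) × Fin (a + 1) × (Fin a → Bool)

theorem fft (K a : ℕ) : ∃ (p0 p1 : Nd K a → Nd K a) (rl : Nd K a → Bool → ℝ → ℝ → ℝ)
    (tv : (Fin (K + 1) × (Fin a → Bool) → Bool) → Nd K a → ℝ),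
    (∀ y n, tv y n = rl n (y (n.1, n.2.2)) (tv y (p0 n)) (tv y (p1 n))) ∧
    (∀ y v, (∀ n, v n = rl n (y (n.1, n.2.2)) (v (p0 n)) (v (p1 n))) → v = tv y) ∧
    (∀ y n, ∃ z : ℤ, |z| ≤ 2 ^ (a * (K + 1)) ∧ tv y n = z) ∧
    ∀ y i, tv y (Fin.last K, Fin.last a, i) = uu (Wt a) y (K + 1) i := by
  let p0 : Nd K a → Nd K a := fun n => Fin.cases (Fin.cases n
    (fun l => (l.castSucc, Fin.last a, n.2.2)) n.1)
    (fun t => (n.1, t.castSucc, update n.2.2 t false)) n.2.1
  let p1 : Nd K a → Nd K a := fun n =>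
    Fin.cases n (fun t => (n.1, t.castSucc, update n.2.2 t true)) n.2.1
  let rl : Nd K a → Bool → ℝ → ℝ → ℝ := fun n b v0 v1 =>
    Fin.cases (sg b * Fin.cases 1 (fun _ => v0) n.1) (fun t => v0 + sg (n.2.2 t) * v1) n.2.1
  let tv : (Fin (K + 1) × (Fin a → Bool) → Bool) → Nd K a → ℝ := fun y n =>
    (Wt n.2.1 *ᵥ fun j => yy y n.1 j * uu (Wt a) y n.1 j) n.2.2
  have h1 : ∀ y n, tv y n = rl n (y (n.1, n.2.2)) (tv y (p0 n)) (tv y (p1 n)) := by
    rintro y ⟨l, t, i⟩
    induction t using Fin.cases with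
    | zero =>
      induction l using Fin.cases with
      | zero => simp [tv, rl, Wt_zero, uu, ← yy_val]
      | succ l => simp [tv, rl, p0, Wt_zero, uu, ← yy_val]
    | succ t => simp [tv, rl, p0, p1, mulVec, dotProduct, Wt_succ, add_mul, sum_add_distrib,
        mul_sum, mul_assoc]
  have key : ∀ (P : Nd K a → Prop), (∀ i, P (0, 0, i)) →
      (∀ (l : Fin K) i, P (l.castSucc, Fin.last a, i) → P (l.succ, 0, i)) →
      (∀ l (t : Fin a) i, (∀ i, P (l, t.castSucc, i)) → P (l, t.succ, i)) → ∀ n, P n := by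
    rintro P k1 k2 k3 ⟨l, t, i⟩
    induction l using Fin.induction generalizing t i with
    | zero => induction t using Fin.induction generalizing i with
      | zero => exact k1 i
      | succ t ih => exact k3 _ t i ih
    | succ l ih => induction t using Fin.induction generalizing i with
      | zero => exact k2 l i (ih _ _)
      | succ t ih => exact k3 _ t i ih
  refine ⟨p0, p1, rl, tv, h1, fun y v hv => funext (key _ (fun i => ?_) (fun l i h => ?_)
    fun l t i h => ?_), fun y n => ?_, fun y i => rfl⟩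
  · rw [hv, h1]; rfl
  · rw [hv, h1]; simp only [rl, p0, Fin.cases_zero, Fin.cases_succ, h]
  · rw [hv, h1]; simp only [rl, p0, p1, Fin.cases_succ, h]
  · have hs : ∀ b, ∃ s : ℤ, |s| = 1 ∧ sg b = s := fun b => by
      cases b
      · exact ⟨1, by simp [sg]⟩
      · exact ⟨-1, by simp [sg]⟩
    obtain ⟨z, k1, k2⟩ := key (fun n => ∃ z : ℤ, |z| ≤ 2 ^ (a * n.1 + n.2.1) ∧ tv y n = z)
      (fun i => by
        obtain ⟨s, s1, s2⟩ := hs (y (0, i))
        exact ⟨s, by simp [s1], by rw [h1]; simp [rl, s2]⟩)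
      (fun l i ⟨z, k1, k2⟩ => by
        obtain ⟨s, s1, s2⟩ := hs (y (l.succ, i))
        exact ⟨s * z, by simpa [abs_mul, s1, mul_add] using k1, by rw [h1]; simp [rl, p0, s2, k2]⟩)
      (fun l t i h => by
        obtain ⟨s, s1, s2⟩ := hs (i t)
        obtain ⟨z, k1, k2⟩ := h (update i t false)
        obtain ⟨z', k3, k4⟩ := h (update i t true)
        refine ⟨z + s * z', (abs_add_le _ _).trans ?_, by rw [h1]; simp [rl, p0, p1, s2, k2, k4]⟩
        simp only [Fin.val_castSucc, Fin.val_succ, ← add_assoc, pow_succ, abs_mul, s1] at k1 k3 ⊢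
        linarith) n
    refine ⟨z, k1.trans (pow_le_pow_right₀ one_le_two ?_), k2⟩
    nlinarith [n.1.2, n.2.1.2, Nat.mul_le_mul_left a (Nat.lt_succ_iff.1 n.1.2)]

/-- a locally checkable proof of the value of `φ` -/
def LPS {J N Wd : Type} (jn : N → J) (φ : (J → Bool) → ℝ) (p0 p1 : N → N) (fin : N)
    (lc : N → Bool → Wd → Wd → Wd → Bool) (val : Wd → ℝ) : Prop :=
  (∀ y (v : N → Wd), (∀ n, lc n (y (jn n)) (v n) (v (p0 n)) (v (p1 n))) → val (v fin) = φ y) ∧
  ∀ y : J → Bool, ∃ v : N → Wd, ∀ n, lc n (y (jn n)) (v n) (v (p0 n)) (v (p1 n))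

theorem lps (K a : ℕ) {c : ℝ} (hc : c ^ 2 = (2 ^ a)⁻¹) : ∃ (p0 p1 : Nd K a → Nd K a) (fin : Nd K a)
    (lc : _) (val : (Fin (a * (K + 1) + 2) → Bool) → ℝ),
    LPS (fun n : Nd K a => (n.1, n.2.2)) (phi (c • Wt a)) p0 p1 fin lc val := by
  classical
  obtain ⟨p0, p1, rl, tv, h1, h2, h3, h4⟩ := fft K a
  obtain ⟨e⟩ : Nonempty (Icc (-2 ^ (a * (K + 1)) : ℤ) (2 ^ (a * (K + 1))) ↪
      (Fin (a * (K + 1) + 2) → Bool)) := Function.Embedding.nonempty_of_card_le (by
    simp only [Fintype.card_coe, Int.card_Icc, Fintype.card_fun, Fintype.card_bool,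
      Fintype.card_fin, Int.toNat_le, pow_add]
    push_cast
    linarith [one_le_pow₀ (n := a * (K + 1)) (one_le_two (α := ℤ))])
  set dec : (Fin (a * (K + 1) + 2) → Bool) → ℝ := extend e (fun z => (z : ℤ)) 0
  refine ⟨p0, p1, (Fin.last K, Fin.last a, fun _ => false), fun n b w w0 w1 =>
    decide (dec w = rl n b (dec w0) (dec w1)), fun w => c ^ (K + 2) * dec w, fun y v hv => ?_,
    fun y => ?_⟩
  · have := congrFun (h2 y (fun n => dec (v n)) fun n => of_decide_eq_true (hv n))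
      (Fin.last K, Fin.last a, fun _ => false)
    simp only [this, h4, phi, uu_smul, uu, mulVec, dotProduct, Wt_top]
    simp [sg, ← hc, mul_sum]
    exact sum_congr rfl fun _ _ => by ring
  · choose z k1 k2 using h3 y
    refine ⟨fun n => e ⟨z n, mem_Icc.2 (abs_le.1 (k1 n))⟩, fun n => decide_eq_true ?_⟩
    simp only [dec, e.injective.extend_apply, ← k2]
    exact h1 y n

end Crest.Agent.H5.QQ
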