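import Mathlib
import Crest.Agent.H5.QQ.G1

/-!
Decision tree lemmas and the hybrid argument.
-/

set_option autoImplicit false
set_option linter.unusedSectionVars false

namespace Crest.Agent.H5.QQ

open Finset Function Crest.MathPhysics.Query

variable {ι J I A : Type} {n : ℕ}

lemma Samp.reindex {ι' : Type} (e : ι → ι') {T : ℕ} {μ : (ι → Bool) → (A → ℝ) → ℝ} (h : Samp T μ) :
    Samp T fun x' : ι' → Bool => μ fun i => x' (e i) := by
  obtain ⟨W, i1, i2, w0, V, out, h1, h2⟩ := h
  refine ⟨W, i1, i2, w0, fun x' => V fun i => x' (e i), out, ?_, fun x f => h2 _ f⟩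
  clear h2
  induction T generalizing V with
  | zero => exact h1.imp fun U h => ⟨h.1, fun x => h.2 _⟩
  | succ T ih =>
    obtain ⟨U, hU, q, V', k1, k2⟩ := h1
    refine ⟨U, hU, fun w => (q w).map e, _, ih V' k1, fun x => ?_⟩
    simp only [k2, OO, Option.any_map]

section tree
variable (e : Fin n → ι) (ar : ι → Prop) [DecidablePred ar]

/-- the first `D` queries in the area `ar` -/
def tq (x : ι → Bool) : DTree n → ℕ → List ι
  | .answer _, _ => []
  | .read i t0 t1, 0 => if ar (e i) then [] else if x (e i) then tq x t1 0 else tq x t0 0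
  | .read i t0 t1, D + 1 => if ar (e i) then e i :: if x (e i) then tq x t1 D else tq x t0 D
      else if x (e i) then tq x t1 (D + 1) else tq x t0 (D + 1)

/-- the number of queries in the area `ar` -/
def cnt (x : ι → Bool) : DTree n → ℕ
  | .answer _ => 0
  | .read i t0 t1 => (if ar (e i) then 1 else 0) + if x (e i) then cnt x t1 else cnt x t0

lemma tq_len (x : ι → Bool) (T : DTree n) (D : ℕ) : (tq e ar x T D).length ≤ D := by
  induction T generalizing D with
  | answer => simp [tq]
  | read i t0 t1 ih0 ih1 => cases D <;> simp only [tq] <;> split_ifs <;> simp [ih0, ih1]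

lemma tq_eval {x0 x1 xs : ι → Bool} {S : ι → Prop} (hS : ∀ i, S i → ar i)
    (h0 : ∀ i, ¬S i → x0 i = xs i) (h1 : ∀ i, ¬S i → x1 i = xs i) (T : DTree n) (D : ℕ)
    (h : ∀ i ∈ tq e ar xs T D, ¬S i) :
    T.eval (fun i => x0 (e i)) = T.eval (fun i => x1 (e i)) ∨ D < cnt e ar x0 T := by
  induction T generalizing D with
  | answer => exact .inl rfl
  | read i t0 t1 ih0 ih1 =>
    by_cases ha : ar (e i)
    · rcases D with _ | D
      · right; simp only [cnt, if_pos ha]; omega
      · simp only [tq, if_pos ha, List.forall_mem_cons] at h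
        simp only [DTree.eval, cnt, if_pos ha, h0 _ h.1, h1 _ h.1, add_comm 1, add_lt_add_iff_right]
        split_ifs at h ⊢
        exacts [ih1 D h.2, ih0 D h.2]
    · have := mt (hS _) ha
      simp only [DTree.eval, cnt, if_neg ha, h0 _ this, h1 _ this, zero_add]
      cases D <;> simp only [tq, if_neg ha] at h <;> split_ifs at h ⊢
      exacts [ih1 _ h, ih0 _ h, ih1 _ h, ih0 _ h]

lemma cnt_sum {G : Type} [Fintype G] [DecidableEq G] (col : ι → G) (x : ι → Bool) (T : DTree n) :
    ∑ b, cnt e (col · = b) x T ≤ T.depth := by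
  induction T with
  | answer => simp [cnt]
  | read i t0 t1 ih0 ih1 =>
    simp only [cnt, sum_add_distrib, sum_ite_eq, mem_univ, if_true, DTree.depth, sum_ite_irrel]
    split_ifs <;> omega

variable [Fintype J] [DecidableEq J] [Nonempty J]

lemma DT.succ : ∀ {d : ℕ} {g : (J → Bool) → ℝ}, DT d g → DT (d + 1) g
  | 0, _, ⟨c, h1, h⟩ => ⟨Classical.arbitrary J, fun _ => ⟨c, h1, fun _ => h _⟩⟩
  | _ + 1, _, ⟨j, h⟩ => ⟨j, fun b => (h b).succ⟩

lemma DT.const {c : ℝ} (hc : |c| ≤ 1) : ∀ d : ℕ, DT d fun _ : J → Bool => c
  | 0 => ⟨c, hc, fun _ => rfl⟩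
  | d + 1 => (DT.const hc d).succ

lemma tq_DT (T : DTree n) (D : ℕ) (sub : ι → J ⊕ Bool) (hs : ∀ i j, sub i = .inl j → ar i)
    (h : List ι → ℝ) (hh : ∀ l, |h l| ≤ 1) :
    DT D fun y => h (tq e ar (fun i => (sub i).elim y id) T D) := by
  induction T generalizing D sub h with
  | answer => exact DT.const (hh _) D
  | read i t0 t1 ih0 ih1 =>
    rcases hi : sub (e i) with j | c
    · have ha := hs _ _ hi
      rcases D with _ | D
      · simp only [tq, if_pos ha]; exact DT.const (hh _) 0
      · refine ⟨j, fun b => ?_⟩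
        have e1 : ∀ y : J → Bool, (fun i => (sub i).elim (update y j b) id) =
            fun i => (if sub i = .inl j then .inr b else sub i : J ⊕ Bool).elim y id := fun y => by
          ext i
          rcases sub i with j' | c
          · by_cases h : j' = j <;> simp [h]
          · simp
        have hs' : ∀ i j', (if sub i = .inl j then .inr b else sub i : J ⊕ Bool) = .inl j' → ar i :=
          fun i j' h => by split_ifs at h; exact hs _ _ h
        simp only [tq, if_pos ha, e1, hi, Sum.elim_inl, update_self]
        cases b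
        · exact ih0 D _ hs' (fun l => h (e i :: l)) fun _ => hh _
        · exact ih1 D _ hs' (fun l => h (e i :: l)) fun _ => hh _
    · rcases D with _ | D <;> simp only [tq, hi, Sum.elim_inr, id] <;> split_ifs
      exacts [DT.const (hh _) 0, ih1 _ _ hs h hh, ih0 _ _ hs h hh,
        (ih1 D _ hs (fun l => h (e i :: l)) fun _ => hh _).succ,
        (ih0 D _ hs (fun l => h (e i :: l)) fun _ => hh _).succ, ih1 _ _ hs h hh, ih0 _ _ hs h hh]

end tree

lemma ind_or (p q : Prop) : ind (p ∨ q) ≤ ind p + ind q := by
  by_cases hp : p <;> by_cases hq : q <;> simp [ind, hp, hq]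

lemma ind_exists [Fintype I] (p : I → Prop) : ind (∃ i, p i) ≤ ∑ i, ind (p i) := by
  by_cases h : ∃ i, p i
  · obtain ⟨i, hi⟩ := h
    exact (ind_le _).trans ((ind_pos hi).symm.trans_le
      (single_le_sum (fun i _ => ind_nonneg (p i)) (mem_univ i)))
  · rw [ind_neg h]; exact sum_nonneg fun _ _ => ind_nonneg _

lemma count_le [Fintype A] (key : ι → Option A) (Q : List ι) :
    ∑ z, ind (∃ i ∈ Q, key i = some z) ≤ Q.length := by
  classical
  induction Q with
  | nil => simp [ind]
  | cons i Q ih =>
    simp only [List.exists_mem_cons_iff, List.length_cons]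
    refine (sum_le_sum fun z _ => ind_or _ _).trans ?_
    rw [sum_add_distrib]
    have : ∑ z, ind (key i = some z) ≤ 1 := by cases key i <;> simp [ind_eq]
    push_cast
    linarith

lemma hybrid [Fintype I] [DecidableEq I] [Fintype A] {w w' : I → A → ℝ} (hw : ∀ i, PW (w i))
    (hw' : ∀ i, PW (w' i)) {f : (I → A) → ℝ} {ε : ℝ}
    (h : ∀ b ω, ∑ a, w' b a * f (update ω b a) ≤ ∑ a, w b a * f (update ω b a) + ε) :
    pw w' f ≤ pw w f + Fintype.card I * ε := by
  have : ∀ s : Finset I, pw (fun i => if i ∈ s then w' i else w i) f ≤ pw w f + #s * ε := by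
    intro s
    induction s using Finset.induction_on with
    | empty => simp
    | insert b s hb ih =>
      have p : ∀ i, PW (if i ∈ s then w' i else w i) := fun i => by split_ifs; exacts [hw' i, hw i]
      rw [show (fun i => if i ∈ insert b s then w' i else w i) =
        update (fun i => if i ∈ s then w' i else w i) b (w' b) by
          ext i : 1; by_cases hi : i = b <;> simp [hi],
        pw_update (w := fun i => if i ∈ s then w' i else w i) (p b).2,
        card_insert_of_notMem hb]
      rw [pw_split (w := fun i => if i ∈ s then w' i else w i) (p b).2, if_neg hb] at ih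
      refine ((pw_isD p).mono (h b)).trans ?_
      rw [(pw_isD p).add, (pw_isD p).const]
      push_cast
      linarith
  simpa using this univ

end Crest.Agent.H5.QQ
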