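import Mathlib
import Crest.Agent.H5.QQ.L1

/-!
The total function and its quantum algorithm.
-/

set_option autoImplicit false
set_option linter.unusedSectionVars false

namespace Crest.Agent.H5.QQ

open Finset Function

/-- the cube -/
abbrev Cu (a : ℕ) : Type := Fin a → Bool

/-- contents of a cell -/
abbrev Ce (a t B : ℕ) (N : Type) : Type := (Cu a × Fin a) ⊕ ((Fin a × Fin t) × N × Fin B)

/-- input positions: columns, forrelation instances, cells -/
abbrev Ix (a t B : ℕ) (J N : Type) : Type :=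
  (Cu a × Cu a) ⊕ (Cu a × (Fin a × Fin t) × J) ⊕ (Cu a × Cu a × Ce a t B N)

/-- the data of the construction -/
structure Data (a B : ℕ) (J N : Type) where
  jn : N → J
  gi : N → Cu a
  p0 : N → N
  p1 : N → N
  fin : N
  lc : N → Bool → (Fin B → Bool) → (Fin B → Bool) → (Fin B → Bool) → Bool
  val : (Fin B → Bool) → ℝ
  θ : ℝ
  δ : ℝ

variable {a t B : ℕ} {J N : Type} [Fintype J] [DecidableEq J] [Fintype N] [DecidableEq N]
  (P : Data a B J N)

/-- the cell `c` points to a zero in column `k` -/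
def kills (c : Cu a × Cu a) (k : Cu a) (x : Ix a t B J N → Bool) : Bool :=
  !x (.inl (k, fun u => x (.inr (.inr (c.1, c.2, .inl (k, u))))))

/-- a word of the transcript -/
def wd (c : Cu a × Cu a) (s : Fin a × Fin t) (n : N) (x : Ix a t B J N → Bool) : Fin B → Bool :=
  fun b => x (.inr (.inr (c.1, c.2, .inr (s, n, b))))

/-- `c` survives the comparison with `r` -/
def surv (r c : Cu a × Cu a) (x : Ix a t B J N → Bool) : Bool :=
  decide (r.1 = c.1) || (kills c r.1 x && !kills r c.1 x)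

/-- local check -/
noncomputable def chk (c : Cu a × Cu a) (j : (Fin a × Fin t) × N) (x : Ix a t B J N → Bool) : Bool :=
  x (.inl (c.1, P.gi j.2)) && (decide (P.gi j.2 = c.1) || kills c (P.gi j.2) x) &&
  P.lc j.2 (x (.inr (.inl (c.1, j.1, P.jn j.2)))) (wd c j.1 j.2 x) (wd c j.1 (P.p0 j.2) x)
    (wd c j.1 (P.p1 j.2) x) &&
  decide (t * P.δ / 4 ≤ sg (c.2 j.1.1) * (∑ r, P.val (wd c (j.1.1, r) P.fin x) - t * P.θ))

/-- the function -/
noncomputable def FF (x : Ix a t B J N → Bool) : Bool := decide (∃ c, ∀ j, chk P c j x)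

lemma det_kills (c : Cu a × Cu a) (k : Cu a) : Det (a + 1) (kills (t := t) (B := B) (J := J)
    (N := N) c k) := by
  have := (Det.pi fun u : Fin a => Det.read (ι := Ix a t B J N)
    (.inr (.inr (c.1, c.2, .inl (k, u))))).bind fun i => (Det.read (.inl (k, i))).map (!·)
  rwa [Fintype.card_fin, mul_one] at this

lemma det_wd (c : Cu a × Cu a) (s : Fin a × Fin t) (n : N) : Det B (wd (B := B) (J := J) c s n) := by
  have := Det.pi fun b : Fin B => Det.read (ι := Ix a t B J N) (.inr (.inr (c.1, c.2, .inr (s, n, b))))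
  rwa [Fintype.card_fin, mul_one] at this

lemma det_surv (r c : Cu a × Cu a) :
    Det (2 * a + 3 + (t + 3) * B) (surv (t := t) (B := B) (J := J) (N := N) r c) :=
  Samp.mono (((det_kills c r.1).pair (det_kills r c.1)).map fun p =>
    decide (r.1 = c.1) || (p.1 && !p.2)) (by omega)

lemma det_chk (c : Cu a × Cu a) (j : (Fin a × Fin t) × N) :
    Det (2 * a + 3 + (t + 3) * B) (chk P c j) :=
  Samp.mono (((((((Det.read (ι := Ix a t B J N) (.inl (c.1, P.gi j.2))).pair (det_kills c (P.gi j.2))).pair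
    (Det.read (ι := Ix a t B J N) (.inr (.inl (c.1, j.1, P.jn j.2))))).pair (det_wd c j.1 j.2)).pair
    (det_wd c j.1 (P.p0 j.2))).pair (det_wd c j.1 (P.p1 j.2))).pair
    (Det.pi fun r => det_wd c (j.1.1, r) P.fin) |>.map fun p =>
      p.1.1.1.1.1.1 && (decide (P.gi j.2 = c.1) || p.1.1.1.1.1.2) &&
      P.lc j.2 p.1.1.1.1.2 p.1.1.1.2 p.1.1.2 p.1.2 &&
      decide (t * P.δ / 4 ≤ sg (c.2 j.1.1) * (∑ r, P.val (p.2 r) - t * P.θ)))
    (by rw [Fintype.card_fin, add_mul]; omega)

lemma cheb_bits {A : Type} [Fintype A] {w : Fin a × Fin t → A → ℝ} (hw : ∀ i, PW (w i))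
    {g : Fin a × Fin t → A → ℝ} (hg : ∀ i b, |g i b| ≤ 1) {δ : ℝ} (δ0 : 0 < δ) (t0 : 0 < t)
    (ht : 320 * a ≤ t * δ ^ 2) (p : Fin a → (Fin a × Fin t → A) → Prop)
    (hp : ∀ u ω, p u ω → t * δ / 4 ≤ |∑ r, (g (u, r) (ω (u, r)) - ∑ b, w (u, r) b * g (u, r) b)|) :
    pw w (fun ω => ind (∃ u, p u ω)) ≤ 1 / 20 := by
  refine ((pw_isD hw).mono fun ω => ind_exists _).trans ?_
  rw [(pw_isD hw).sum]
  refine (sum_le_card_nsmul _ _ (t / (t * δ / 4) ^ 2 : ℝ) fun u _ => (pw_cheb hw hg ({u} ×ˢ univ)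
    (l := t * δ / 4) (by positivity) (p u) fun ω h => by simpa using hp u ω h).trans_eq (by simp)).trans ?_
  simp only [card_univ, Fintype.card_fin, nsmul_eq_mul]
  rw [← mul_div_assoc, div_le_div_iff₀ (by positivity) (by norm_num)]
  nlinarith [mul_le_mul_of_nonneg_left ht (t.cast_nonneg (α := ℝ))]

theorem upper (a0 : 0 < a) (t0 : 0 < t) {φ : (J → Bool) → ℝ} (hφ : ∀ y, |φ y| ≤ 1) {q : ℕ}
    (sφ : ∀ loc : J → Ix a t B J N, Samp q fun x (f : Bool → ℝ) =>
      (1 + φ fun j => x (loc j)) / 2 * f false + (1 - φ fun j => x (loc j)) / 2 * f true)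
    (hl : ∀ y (v : N → Fin B → Bool), (∀ n, P.lc n (y (P.jn n)) (v n) (v (P.p0 n)) (v (P.p1 n))) →
      P.val (v P.fin) = φ y) (hg : Surjective P.gi) (δ0 : 0 < P.δ) (ht : 320 * a ≤ t * P.δ ^ 2)
    (n : ℕ) (h1 : 2 * 2 ^ a ≤ 9 ^ n) (h2 : a * t * Fintype.card N ≤ 9 ^ n) :
    ∃ ν : (Ix a t B J N → Bool) → (Bool → ℝ) → ℝ, Samp (3 ^ n * (8 * (4 * (n + 1)) *
      ((8 * (n + 1) * a + 1) * (a * t * q + 2 * (8 * (n + 1) * a * (2 * a + 3 + (t + 3) * B))) +
      4 * (n + 1) * (24 * (4 * (n + 1))) * (3 * (2 * a + 3 + (t + 3) * B))))) ν ∧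
      ∀ x, 2 / 3 ≤ ν x fun b => if b = FF P x then 1 else 0 := by
  have : Nonempty ((Fin a × Fin t) × N) := ⟨((⟨0, a0⟩, ⟨0, t0⟩), P.fin)⟩
  set w : Cu a → (Ix a t B J N → Bool) → Fin a × Fin t → Bool → ℝ := fun k x s b =>
    (1 + sg b * φ fun j => x (.inr (.inl (k, s, j)))) / 2 with hw
  have pw1 : ∀ k x s, PW (w k x s) := fun k x s => ⟨fun b => by
    have := abs_le.1 (hφ fun j => x (.inr (.inl (k, s, j))))
    cases b <;> simp only [hw, sg] <;> norm_num <;> linarith, by simp [hw, sg]; ring⟩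
  have s1 := Samp.unif.bind fun k : Cu a => (Samp.pi (w := w k) (T := q) (fun s => by
    convert sφ fun j => .inr (.inl (k, s, j)) using 3
    simp [hw, sg, add_comm, sub_eq_add_neg]) (pw1 k)).map
      fun σ => (k, fun u => decide (∑ r, sg (σ (u, r)) < t * P.θ))
  have cN : (Fintype.card (Cu a) : ℝ) = 2 ^ a := by simp
  rw [zero_add, Fintype.card_prod, Fintype.card_fin, Fintype.card_fin, cN] at s1
  obtain ⟨ν, k1, k2⟩ := champ s1 det_surv (det_chk P) Prod.fst n a (β := (2 ^ a)⁻¹)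
    (by rw [← div_eq_mul_inv, le_div_iff₀ (by positivity)]; exact_mod_cast h1)
    (by
      rw [Real.exp_neg, ← mul_one (a : ℝ), Real.exp_nat_mul]
      exact inv_anti₀ (by positivity) (pow_le_pow_left₀ zero_le_two
        (by linarith [Real.add_one_le_exp 1]) _))
    (by simpa using h2)
    (fun x r c => by
      simp only [surv, Bool.or_eq_true, decide_eq_true_eq, Bool.and_eq_true, Bool.not_eq_true']
      rintro (h | h) (h' | h')
      exacts [h, h, h'.symm, by simp [h.1] at h'])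
    (fun x k => by simp [(pw_isD (pw1 _ x)).const, ind_eq])
    (fun x c hc => by
      simp only [chk, Bool.and_eq_true, Bool.or_eq_true, decide_eq_true_eq, Prod.forall] at hc
      refine ⟨fun r => ?_, ?_⟩
      · obtain ⟨n1, e1⟩ := hg r.1
        obtain ⟨n2, e2⟩ := hg fun u => x (.inr (.inr (r.1, r.2, .inl (c.1, u))))
        have k1 := (hc ⟨0, a0⟩ ⟨0, t0⟩ n1).1.1.2
        have k2 := (hc ⟨0, a0⟩ ⟨0, t0⟩ n2).1.1.1
        rw [e1] at k1
        rw [e2] at k2
        simpa [surv, kills, k2] using k1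
      · refine le_trans ?_ (single_le_sum (fun k _ => mul_nonneg (by positivity)
          ((pw_isD (pw1 k x)).nonneg fun _ => ind_nonneg _)) (mem_univ c.1))
        have b1 := cheb_bits (pw1 c.1 x) (g := fun _ => sg) (fun _ b => (sg_abs b).le) δ0 t0 ht
          (fun u σ => decide (∑ r, sg (σ (u, r)) < t * P.θ) ≠ c.2 u) fun u σ h => by
            have e1 : ∀ r, ∑ b, w c.1 x (u, r) b * sg b = P.val (wd c (u, r) P.fin x) := fun r => by
              rw [hl (fun j => x (.inr (.inl (c.1, (u, r), j)))) (fun n => wd c (u, r) n x)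
                fun n => (hc u r n).1.2]
              simp [hw, sg]; ring
            have e2 := (hc u ⟨0, t0⟩ P.fin).2
            simp only [e1, sum_sub_distrib, le_abs]
            cases e3 : c.2 u <;> simp [e3, sg] at h e2 <;> [right; left] <;> simp only [sg] <;>
              linarith
        have b2 := (pw_isD (pw1 c.1 x)).mono (f := fun σ => 1 + -1 * ind (∃ u,
            decide (∑ r, sg (σ (u, r)) < t * P.θ) ≠ c.2 u)) (g := fun σ =>
            ind ((c.1, fun u => decide (∑ r, sg (σ (u, r)) < t * P.θ)) = c)) fun σ => by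
          by_cases h : ∃ u, decide (∑ r, sg (σ (u, r)) < t * P.θ) ≠ c.2 u
          · rw [ind_pos h]; simpa using ind_nonneg _
          · rw [ind_neg h, mul_zero, add_zero]
            refine (ind_pos ?_).ge
            exact Prod.ext rfl (funext fun u => not_not.1 (not_exists.1 h u))
        rw [(pw_isD (pw1 c.1 x)).lin] at b2
        rw [div_eq_mul_inv]
        exact mul_le_mul_of_nonneg_left (by linarith) (by positivity))
  exact ⟨ν, k1, fun x => k2 x _ (by simp [FF])⟩

end Crest.Agent.H5.QQ
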