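import Mathlib
import Crest.Agent.H5.QQ.M1

/-!
The randomized lower bound.
-/

set_option autoImplicit false
set_option linter.unusedSectionVars false

namespace Crest.Agent.H5.QQ

open Finset Function Crest.MathPhysics.Query

/-- randomness of one column -/
abbrev Om (a t : ℕ) (J : Type) : Type := Cu a × Cu a × (Fin a × Fin t → J → Bool)

variable {a t B : ℕ} {J N : Type} [Fintype J] [DecidableEq J] [Fintype N] [DecidableEq N]

/-- negative input -/
def x0 (ω : Cu a → Om a t J) : Ix a t B J N → Bool :=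
  Sum.elim (fun p => decide (p.2 ≠ (ω p.1).1))
    (Sum.elim (fun p => (ω p.1).2.2 p.2.1 p.2.2) fun _ => false)

/-- intermediate input -/
def xs (b : Cu a) (ω : Cu a → Om a t J) (y : Fin a × Fin t → J → Bool) : Ix a t B J N → Bool :=
  Sum.elim (fun p => decide (p.1 = b ∨ p.2 ≠ (ω p.1).1))
    (Sum.elim (fun p => if p.1 = b then y p.2.1 p.2.2 else (ω p.1).2.2 p.2.1 p.2.2) fun _ => false)

/-- positive input -/
def x1 (enc : (J → Bool) → N → Fin B → Bool) (b : Cu a) (ω : Cu a → Om a t J) :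
    Ix a t B J N → Bool :=
  Sum.elim (fun p => decide (p.1 = b ∨ p.2 ≠ (ω p.1).1))
    (Sum.elim (fun p => (ω p.1).2.2 p.2.1 p.2.2) fun p => if p.1 = b ∧ p.2.1 = (ω b).2.1 then
      Sum.elim (fun r => (ω r.1).1 r.2) (fun r => enc ((ω b).2.2 r.1) r.2.1 r.2.2) p.2.2 else false)

/-- column of a position -/
def colI : Ix a t B J N → Cu a := Sum.elim Prod.fst (Sum.elim Prod.fst Prod.fst)

/-- row of a column position -/
def key1 : Ix a t B J N → Option (Cu a) := Sum.elim (fun p => some p.2) fun _ => none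

/-- address of a cell position -/
def key2 : Ix a t B J N → Option (Cu a) :=
  Sum.elim (fun _ => none) (Sum.elim (fun _ => none) fun p => some p.2.1)

lemma xs_update (b : Cu a) (ω : Cu a → Om a t J) (o : Om a t J) (y : Fin a × Fin t → J → Bool) :
    (xs b (update ω b o) y : Ix a t B J N → Bool) = xs b ω y := by
  ext (⟨k, i⟩ | ⟨k, s, j⟩ | _)
  · by_cases h : k = b <;> simp [xs, h]
  · by_cases h : k = b <;> simp [xs, h]
  · rfl

lemma tree_step {n : ℕ} (e : Fin n → Ix a t B J N) (enc : (J → Bool) → N → Fin B → Bool)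
    (T : DTree n) {D : ℕ} (D0 : 0 < D) (b : Cu a) (ω : Cu a → Om a t J) :
    ind (T.eval fun i => x1 enc b ω (e i)) ≤ ind (T.eval fun i => x0 ω (e i)) +
      (D : ℝ)⁻¹ * cnt e (colI · = b) (x0 ω) T +
      ind (∃ i ∈ tq e (colI · = b) (xs b ω (ω b).2.2) T D, key1 i = some (ω b).1) +
      ind (∃ i ∈ tq e (colI · = b) (xs b ω (ω b).2.2) T D, key2 i = some (ω b).2.1) := by
  have a0 : 0 ≤ (D : ℝ)⁻¹ * cnt e (colI · = b) (x0 ω) T := by positivity
  have a1 := ind_le (T.eval fun i => x1 enc b ω (e i))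
  have a2 := ind_nonneg (T.eval fun i => x0 ω (e i))
  by_cases h1 : ∃ i ∈ tq e (colI · = b) (xs b ω (ω b).2.2) T D, key1 i = some (ω b).1
  · rw [ind_pos h1]
    linarith [ind_nonneg (∃ i ∈ tq e (colI · = b) (xs b ω (ω b).2.2) T D, key2 i = some (ω b).2.1)]
  by_cases h2 : ∃ i ∈ tq e (colI · = b) (xs b ω (ω b).2.2) T D, key2 i = some (ω b).2.1
  · rw [ind_pos h2, ind_neg h1]; linarith
  rw [ind_neg h1, ind_neg h2]
  rcases tq_eval e (colI · = b) (x0 := x0 ω) (x1 := x1 enc b ω) (xs := xs b ω (ω b).2.2)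
    (S := fun i => colI i = b ∧ (key1 i = some (ω b).1 ∨ key2 i = some (ω b).2.1))
    (fun _ h => h.1) (by
      rintro (⟨k, i⟩ | ⟨k, s, j⟩ | _) h
      · by_cases hk : k = b <;> simp_all [x0, xs, colI, key1, key2]
      · by_cases hk : k = b <;> simp [x0, xs, hk]
      · rfl) (by
      rintro (⟨k, i⟩ | ⟨k, s, j⟩ | ⟨k, l, c⟩) h
      · rfl
      · by_cases hk : k = b <;> simp [x1, xs, hk]
      · simp_all [x1, xs, colI, key1, key2]) T D
    (fun i hi h => h.2.elim (fun h => h1 ⟨i, hi, h⟩) fun h => h2 ⟨i, hi, h⟩) with h | h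
  · rw [h]; linarith
  · have : 1 ≤ (D : ℝ)⁻¹ * cnt e (colI · = b) (x0 ω) T := by
      rw [← div_eq_inv_mul, one_le_div (by positivity)]; exact_mod_cast h.le
    linarith

lemma xs_DT [Nonempty J] {n : ℕ} (e : Fin n → Ix a t B J N) (T : DTree n) (D : ℕ) (b : Cu a)
    (ω : Cu a → Om a t J) (y : Fin a × Fin t → J → Bool) (s : Fin a × Fin t)
    (p : List (Ix a t B J N) → Prop) :
    DT D fun y' => ind (p (tq e (colI · = b) (xs b ω (update y s y')) T D)) := by
  set sub : Ix a t B J N → J ⊕ Bool := Sum.elim (fun p => .inr (xs (B := B) (N := N) b ω y (.inl p)))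
    (Sum.elim (fun p => if p.1 = b ∧ p.2.1 = s then .inl p.2.2 else
      .inr (xs (B := B) (N := N) b ω y (.inr (.inl p)))) fun _ => .inr false) with hs
  have e1 : ∀ y', xs b ω (update y s y') = fun i => (sub i).elim y' id := fun y' => by
    ext (⟨k, i⟩ | ⟨k, s', j⟩ | _)
    · rfl
    · by_cases hk : k = b <;> by_cases hs' : s' = s <;> simp [xs, hk, hs', hs]
    · rfl
  simp only [e1]
  refine tq_DT e (colI · = b) T D sub ?_ (fun l => ind (p l)) fun l => by
    rw [abs_of_nonneg (ind_nonneg _)]; exact ind_le _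
  rintro (_ | ⟨k, s', j⟩ | _) j h
  · simp [hs] at h
  · by_contra hk
    simp [hs, show k ≠ b from hk] at h
  · simp [hs] at h

theorem lower [Nonempty J] (P : Data a B J N) (a0 : 0 < a) (t0 : 0 < t) {φ : (J → Bool) → ℝ}
    (hφ : ∀ y, |φ y| ≤ 1)
    (hl : ∀ y (v : N → Fin B → Bool), (∀ n, P.lc n (y (P.jn n)) (v n) (v (P.p0 n)) (v (P.p1 n))) →
      P.val (v P.fin) = φ y)
    (hc : ∀ y : J → Bool, ∃ v : N → Fin B → Bool,
      ∀ n, P.lc n (y (P.jn n)) (v n) (v (P.p0 n)) (v (P.p1 n)))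
    (hg : Surjective P.gi) (δ0 : 0 < P.δ) (ht : 320 * a ≤ t * P.δ ^ 2)
    {Dw : Bool → (J → Bool) → ℝ} (hw : ∀ σ, PW (Dw σ))
    (gap : P.δ ≤ ∑ y, Dw false y * φ y - ∑ y, Dw true y * φ y)
    (hθ : P.θ = (∑ y, Dw false y * φ y + ∑ y, Dw true y * φ y) / 2) {D : ℕ} {ε : ℝ} (ε0 : 0 ≤ ε)
    (adv : ∀ g, DT D g → |∑ y, Dw false y * g y - ∑ y, Dw true y * g y| ≤ ε) (D0 : 0 < D)
    (hD : 20 * D ≤ 2 ^ a) (hε : a * t * ε ≤ 1 / 10) {n : ℕ} (e : Fin n ≃ Ix a t B J N) {r : ℕ}
    (hr : RandomizedComputes (fun x => FF P fun i => x (e.symm i)) r) : 2 ^ a * D ≤ 10 * r := by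
  obtain ⟨s, p, T, p0, p1, hT, hr⟩ := hr
  choose enc henc using hc
  set M : ℝ := 2 ^ a with hM
  have M0 : 0 < M := by positivity
  have cN : (Fintype.card (Cu a) : ℝ) = M := by simp [hM]
  set ν : Om a t J → ℝ := fun o => M⁻¹ * M⁻¹ * ∏ s, Dw (o.2.1 s.1) (o.2.2 s) with hν
  have eν : ∀ f : Om a t J → ℝ, ∑ o, ν o * f o = M⁻¹ * M⁻¹ * ∑ l, ∑ z,
      pw (fun s : Fin a × Fin t => Dw (l s.1)) fun y => f (z, l, y) := fun f => by
    rw [sum_comm]
    simp only [Fintype.sum_prod_type, hν, pw, mul_sum, mul_assoc]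
  have D1 := fun l : Cu a => pw_isD fun s : Fin a × Fin t => hw (l s.1)
  have pν : PW ν := ⟨fun o => mul_nonneg (by positivity) (prod_nonneg fun _ _ => (hw _).1 _), by
    have := eν fun _ => 1
    simp only [mul_one, (D1 _).const, sum_const, card_univ, nsmul_eq_mul, cN] at this
    rw [this]; field_simp⟩
  have DE := pw_isD fun _ : Cu a => pν
  have split : ∀ (b : Cu a) (f : (Cu a → Om a t J) → ℝ) (c : ℝ), (∀ ω, ∑ l, ∑ z,
      pw (fun s : Fin a × Fin t => Dw (l s.1)) (fun y => f (update ω b (z, l, y))) ≤ M * M * c) →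
      pw (fun _ => ν) f ≤ c := fun b f c h => by
    rw [pw_split (b := b) pν.2]
    refine DE.le fun ω => (eν _).trans_le ?_
    refine (mul_le_mul_of_nonneg_left (h ω) (by positivity)).trans_eq ?_
    field_simp
  have A : ∀ (T : DTree n) b, pw (fun _ => ν) (fun ω => ind (T.eval fun i => x1 enc b ω (e i))) ≤
      pw (fun _ => ν) (fun ω => ind (T.eval fun i => x0 ω (e i))) +
      (D : ℝ)⁻¹ * pw (fun _ => ν) (fun ω => cnt e (colI · = b) (x0 ω) T) + 1 / 5 := by
    intro T b
    refine (DE.mono (tree_step e enc T D0 b)).trans ?_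
    have hD' : (20 * D : ℝ) ≤ M := by rw [hM]; exact_mod_cast hD
    have cn : ∀ (l : Cu a) (ω : Cu a → Om a t J) (key : Ix a t B J N → Option (Cu a)), ∑ z,
        pw (fun s : Fin a × Fin t => Dw (l s.1)) (fun y =>
          ind (∃ i ∈ tq e (colI · = b) (xs b ω y) T D, key i = some z)) ≤ M / 20 := by
      intro l ω key
      rw [← (D1 l).sum]
      refine (D1 l).le fun y => (count_le key _).trans ?_
      have : ((tq e (colI · = b) (xs b ω y) T D).length : ℝ) ≤ D := by exact_mod_cast tq_len ..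
      linarith
    have b1 := split b (fun ω => ind (∃ i ∈ tq e (colI · = b) (xs b ω (ω b).2.2) T D,
      key1 i = some (ω b).1)) (1 / 20) fun ω => by
        simp only [update_self, xs_update]
        refine (sum_le_card_nsmul _ _ _ fun l _ => cn l ω key1).trans_eq ?_
        rw [card_univ, nsmul_eq_mul, cN]; ring
    have b2 := split b (fun ω => ind (∃ i ∈ tq e (colI · = b) (xs b ω (ω b).2.2) T D,
      key2 i = some (ω b).2.1)) (3 / 20) fun ω => by
        simp only [update_self, xs_update, sum_const, card_univ, nsmul_eq_mul, cN, ← mul_sum]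
        refine (mul_le_mul_of_nonneg_left (sum_le_sum fun l _ => hybrid (ε := ε)
          (fun _ => hw false) (fun s : Fin a × Fin t => hw (l s.1)) fun s y => ?_) M0.le).trans ?_
        · have := abs_le.1 (adv _ (xs_DT e T D b ω y s fun Q => ∃ i ∈ Q, key2 i = some l))
          cases l s.1 <;> linarith
        · simp only [sum_add_distrib, sum_const, card_univ, nsmul_eq_mul, cN, Fintype.card_prod,
            Fintype.card_fin, mul_assoc M]
          push_cast
          gcongr
          nlinarith [cn (fun _ => false) ω key2]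
    rw [DE.add, DE.add, DE.add, DE.mul]
    linarith
  have B1 : ∀ b, 19 / 30 ≤ ∑ j, p j * pw (fun _ => ν) fun ω =>
      ind ((T j).eval fun i => x1 enc b ω (e i)) := by
    intro b
    set bad : Om a t J → Prop := fun o => ∃ u, ¬t * P.δ / 4 ≤
      sg (o.2.1 u) * (∑ r, φ (o.2.2 (u, r)) - t * P.θ)
    have b1 := split b (fun ω => ind (bad (ω b))) (1 / 20) fun ω => by
      simp only [update_self]
      refine (sum_le_card_nsmul _ _ _ fun l _ => sum_le_card_nsmul _ _ _ fun z _ =>
        cheb_bits (fun s => hw (l s.1)) (g := fun _ => φ) (fun _ => hφ) δ0 t0 ht _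
          fun u y h => ?_).trans_eq (by simp only [card_univ, nsmul_eq_mul, cN]; ring)
      have t1 := mul_le_mul_of_nonneg_left gap (t.cast_nonneg (α := ℝ))
      simp only [sum_sub_distrib, sum_const, card_univ, Fintype.card_fin, nsmul_eq_mul, le_abs]
      rw [hθ] at h
      cases e3 : l u <;> simp [e3, sg] at h <;> [right; left] <;> linarith
    simp only [← DE.mul]
    rw [← DE.sum]
    refine le_trans ?_ (DE.mono (f := fun ω => 2 / 3 + -(2 / 3) * ind (bad (ω b))) fun ω => ?_)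
    · rw [DE.lin]; linarith
    by_cases h : bad (ω b)
    · rw [ind_pos h]
      exact le_trans (by norm_num) (sum_nonneg fun j _ => mul_nonneg (p0 j) (ind_nonneg _))
    · have : FF P (x1 enc b ω) = true := by
        refine decide_eq_true ⟨(b, (ω b).2.1), fun j => ?_⟩
        have e1 : ∀ s m, wd (b, (ω b).2.1) s m (x1 enc b ω : Ix a t B J N → Bool) =
            enc ((ω b).2.2 s) m := fun s m => by ext; simp [wd, x1]
        simp only [chk, e1, hl _ _ (henc _), Bool.and_eq_true, Bool.or_eq_true, decide_eq_true_eq]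
        refine ⟨⟨⟨by simp [x1], ?_⟩, henc _ _⟩, not_not.1 (not_exists.1 h _)⟩
        by_cases hk : P.gi j.2 = b <;> simp [kills, x1, hk]
      have := (hr fun i => x1 enc b ω (e i)).trans_eq (by
        simp only [Equiv.apply_symm_apply, this]; rfl)
      simpa [ind_neg h, ind_eq] using this
  have B0 : ∑ j, p j * pw (fun _ => ν) (fun ω => ind ((T j).eval fun i => x0 ω (e i))) ≤ 1 / 3 := by
    simp only [← DE.mul]
    rw [← DE.sum]
    refine DE.le fun ω => ?_
    have : FF P (x0 ω : Ix a t B J N → Bool) = false := by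
      refine decide_eq_false fun ⟨c, h⟩ => ?_
      obtain ⟨m, hm⟩ := hg (ω c.1).1
      simpa [chk, hm, x0] using h ((⟨0, a0⟩, ⟨0, t0⟩), m)
    have k := hr fun i => x0 ω (e i)
    simp only [Equiv.apply_symm_apply, this] at k
    have : ∑ j, p j * ind ((T j).eval fun i => x0 ω (e i)) +
        ∑ j, (if ((T j).eval fun i => x0 ω (e i)) = false then p j else 0) = 1 := by
      rw [← sum_add_distrib, ← p1]
      exact sum_congr rfl fun j _ => by cases (T j).eval fun i => x0 ω (e i) <;> simp [ind]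
    linarith
  have C1 : ∀ b, 1 / 10 ≤ (D : ℝ)⁻¹ * ∑ j, p j * pw (fun _ => ν)
      fun ω => cnt e (colI · = b) (x0 ω) (T j) := fun b => by
    have := (B1 b).trans (sum_le_sum fun j _ => mul_le_mul_of_nonneg_left (A (T j) b) (p0 j))
    simp only [mul_add, sum_add_distrib, ← sum_mul, p1, mul_left_comm (p _), ← mul_sum] at this
    linarith
  have C2 := sum_le_sum fun b (_ : b ∈ univ) => C1 b
  rw [← mul_sum, sum_comm, sum_const, card_univ, nsmul_eq_mul, cN, ← div_eq_inv_mul,
    le_div_iff₀ (by positivity)] at C2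
  have C3 : ∑ j, ∑ b, p j * pw (fun _ => ν) (fun ω => cnt e (colI · = b) (x0 ω) (T j)) ≤
      ∑ j, p j * r := sum_le_sum fun j _ => by
    rw [← mul_sum, ← DE.sum]
    refine mul_le_mul_of_nonneg_left (DE.le fun ω => ?_) (p0 j)
    exact_mod_cast (cnt_sum e colI (x0 ω) (T j)).trans (hT j)
  rw [← sum_mul, p1] at C3
  have : M * D ≤ 10 * r := by linarith
  rw [hM] at this
  exact_mod_cast this

end Crest.Agent.H5.QQ
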