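import Mathlib
import Crest.Agent.H5.QQ.M2
import Crest.Agent.H5.QQ.F1

/-!
Choice of parameters.
-/

set_option autoImplicit false

namespace Crest.Agent.H5.QQ

open Finset Function Crest.MathPhysics.Query Filter Matrix

/-- polynomially bounded -/
def Pl (f : ℕ → ℕ) : Prop := ∃ C b : ℕ, ∀ j, 1 ≤ j → f j ≤ C * j ^ b

lemma Pl.const (c : ℕ) : Pl fun _ => c := ⟨c, 0, fun _ _ => by simp⟩
lemma Pl.id : Pl fun j => j := ⟨1, 1, fun _ _ => by simp⟩
lemma Pl.mul {f g : ℕ → ℕ} : Pl f → Pl g → Pl fun j => f j * g j :=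
  fun ⟨C, b, h⟩ ⟨C', b', h'⟩ => ⟨C * C', b + b', fun j hj =>
    (Nat.mul_le_mul (h j hj) (h' j hj)).trans_eq (by ring)⟩
lemma Pl.add {f g : ℕ → ℕ} : Pl f → Pl g → Pl fun j => f j + g j :=
  fun ⟨C, b, h⟩ ⟨C', b', h'⟩ => ⟨C + C', b + b', fun j hj => by
    rw [add_mul]
    exact add_le_add ((h j hj).trans (by gcongr; omega)) ((h' j hj).trans (by gcongr; omega))⟩
lemma Pl.pow {f : ℕ → ℕ} (n : ℕ) : Pl f → Pl fun j => f j ^ n :=
  fun ⟨C, b, h⟩ => ⟨C ^ n, b * n, fun j hj =>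
    (Nat.pow_le_pow_left (h j hj) n).trans_eq (by ring)⟩

lemma Pl.ev {f : ℕ → ℕ} (h : Pl f) : ∀ᶠ j in atTop, f j ≤ 4 ^ j := by
  obtain ⟨C, b, h⟩ := h
  have := (tendsto_pow_const_div_const_pow_of_one_lt b (show (1 : ℝ) < 4 by norm_num)).const_mul
    (C : ℝ)
  rw [mul_zero] at this
  filter_upwards [this.eventually (gt_mem_nhds zero_lt_one), eventually_ge_atTop 1] with j h1 h2
  rw [← mul_div_assoc, div_lt_one (by positivity)] at h1
  exact (h j h2).trans (by exact_mod_cast h1.le)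

/-- number of repetitions -/
def tt (K j : ℕ) : ℕ := 320 * (2 * j) * (32 * (j * (K + 4))) ^ (2 * K)

/-- size of the search spaces -/
def LL (K j : ℕ) : ℕ := 2 * (2 * j) * tt K j * ((K + 1) * (2 * j + 1))

/-- polylogarithmic overhead -/
def cost (K j n : ℕ) : ℕ := 8 * (4 * (n + 1)) * ((8 * (n + 1) * (2 * j) + 1) *
  (2 * j * tt K j * (K + 1) + 2 * (8 * (n + 1) * (2 * j) *
    (2 * (2 * j) + 3 + (tt K j + 3) * (2 * j * (K + 1) + 2)))) +
  4 * (n + 1) * (24 * (4 * (n + 1))) * (3 * (2 * (2 * j) + 3 + (tt K j + 3) * (2 * j * (K + 1) + 2))))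

/-- constant in the advantage -/
def CC (K : ℕ) : ℕ := 4 * (4 * (2 * K + 2) * ((2 * K + 2) * 2 ^ (K + 1))) ^ (K + 1) * 2 ^ (K + 1) +
  36 * K

theorem fixed {k K j : ℕ} (hk : 2 ≤ k) (hK : K + 1 = 4 * k) (h1 : 3 * k ≤ j)
    (h2 : 32 * (j * (K + 4)) ≤ 4 ^ j) (h3 : 24 * K ≤ 4 ^ j) (h4 : LL K j ≤ 4 ^ j)
    (h5 : 10 * (2 * j * tt K j * CC K) ≤ 4 ^ j) : ∃ (n : ℕ) (F : (Fin n → Bool) → Bool),
      (∃ q ≤ 2 ^ j * (3 * LL K j * cost K j (2 * j + 1)), QuantumComputes F q) ∧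
      ∀ r, RandomizedComputes F r → 4 ^ (j + (j - j / k)) ≤ 10 * r := by
  have j0 : 0 < j := by omega
  have K0 : K ≠ 0 := by omega
  set s : ℝ := 2 ^ j with hs
  have s0 : 0 < s := by positivity
  have s2 : s ^ 2 = 2 ^ (2 * j) := by rw [hs, ← pow_mul, mul_comm]
  have n4 : (4 : ℕ) ^ j = 2 ^ (2 * j) := by rw [pow_mul]; norm_num
  have n4' : (4 : ℝ) ^ j = s ^ 2 := by rw [s2, pow_mul]; norm_num
  have cN : (Fintype.card (Cu (2 * j)) : ℝ) = s ^ 2 := by simp [s2]
  set H : Matrix (Cu (2 * j)) (Cu (2 * j)) ℝ := s⁻¹ • Wt (2 * j) with hH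
  have H1 : H * Hᵀ = 1 := by
    rw [hH, transpose_smul, smul_mul_smul_comm, Wt_orth, smul_smul, ← s2, show
      s⁻¹ * s⁻¹ * s ^ 2 = 1 by field_simp, one_smul]
  have H2 : ∀ i i', H i i' ^ 2 = (s ^ 2)⁻¹ := fun i i' => by
    rw [hH, Matrix.smul_apply, smul_eq_mul, mul_pow, Wt_top, ← prod_pow]
    simp [sq, sg_mul]
  have s1 : 1 ≤ s := one_le_pow₀ one_le_two
  have H3 : ∀ i i', |H i i'| ≤ 1 := fun i i' => by
    rw [← sq_le_one_iff_abs_le_one, H2]; exact inv_le_one_of_one_le₀ (one_le_pow₀ s1)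
  have qp := fun {ι : Type} (loc : Fin (K + 1) × Cu (2 * j) → ι) => qu_phi H1 (h := s⁻¹)
    (fun _ => false) (fun i => by simp [hH, Wt_top, sg]) (fun i => by simp [hH, Wt_top, sg])
    (by rw [cN, inv_pow]) loc
  have hφ : ∀ y : Fin (K + 1) × Cu (2 * j) → Bool, |phi H y| ≤ 1 := fun y => by
    obtain ⟨V, k1, k2⟩ := qp id
    simpa [k2] using entry_norm_bound_of_unitary (k1.unit y) (fun _ => false) fun _ => false
  obtain ⟨p0, p1, fin, lc, val, hl, hc⟩ := lps K (2 * j) (c := s⁻¹) (by rw [inv_pow, s2])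
  set r := j * (K + 4) with hr
  have r0 : 0 < r := by positivity
  set M := s ^ 2 with hM
  have M1 : 1 ≤ M := one_le_pow₀ s1
  have h2' : (32 * r : ℝ) ≤ M := by rw [← n4']; exact_mod_cast h2
  have h3' : (24 * K : ℝ) ≤ M := by rw [← n4']; exact_mod_cast h3
  have e2 : √(32 * r : ℝ)⁻¹ ^ 2 = (32 * r : ℝ)⁻¹ := Real.sq_sqrt (by positivity)
  obtain ⟨Dw, hw, hD⟩ := hard K0 H1 H3 (e := √(32 * r : ℝ)⁻¹) r0 (by
    rw [e2]; apply le_of_eq; field_simp) (η := 6 * K / M ^ (K + 3)) (by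
      have a1 : (K * Fintype.card (Cu (2 * j)) : ℕ) * (3 / 4 ^ r : ℝ) = 3 * K / M ^ (K + 3) := by
        rw [Nat.cast_mul, cN, hr, pow_mul, n4']; field_simp; ring
      have a2 : (3 * K / M ^ (K + 3) : ℝ) ≤ 1 / 2 := by
        rw [div_le_iff₀ (by positivity)]
        linarith [le_self_pow₀ M1 (show K + 3 ≠ 0 by omega)]
      have a3 : (0 : ℝ) ≤ 3 * K / M ^ (K + 3) := by positivity
      rw [add_comm]
      refine (pow_le_pow_left₀ (by positivity) (Real.add_one_le_exp _) _).trans ?_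
      rw [← Real.exp_nat_mul, a1]
      refine (Real.exp_bound_div_one_sub_of_interval a3 (by linarith)).trans ?_
      rw [div_le_iff₀ (by linarith), show (6 * K / M ^ (K + 3) : ℝ) = 2 * (3 * K / M ^ (K + 3)) by
        ring]
      nlinarith)
  rw [e2, cN] at hD
  set δ := (32 * r : ℝ)⁻¹ ^ K with hδ
  have δ0 : 0 < δ := by positivity
  have δ1 : δ ≤ 1 := pow_le_one₀ (by positivity) (inv_le_one_of_one_le₀ (by
    have : (1 : ℝ) ≤ r := by exact_mod_cast r0
    linarith))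
  let P : Data (2 * j) (2 * j * (K + 1) + 2) (Fin (K + 1) × Cu (2 * j)) (Nd K (2 * j)) :=
    ⟨fun n => (n.1, n.2.2), fun n => n.2.2, p0, p1, fin, lc, val,
      (∑ y, Dw false y * phi H y + ∑ y, Dw true y * phi H y) / 2, δ⟩
  have hg : Surjective P.gi := fun i => ⟨(0, 0, i), rfl⟩
  have t0 : 0 < tt K j := by unfold tt; positivity
  have ht : 320 * (2 * j : ℕ) ≤ tt K j * P.δ ^ 2 := by
    simp only [P, hδ, tt, ← hr]
    apply le_of_eq
    push_cast
    rw [← pow_mul, mul_comm K, mul_assoc _ (_ ^ _), ← mul_pow, mul_inv_cancel₀ (by positivity),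
      one_pow, mul_one]
  have L0 : 0 < LL K j := by unfold LL; positivity
  set n := Nat.clog 9 (LL K j * 4 ^ j)
  have n1 : LL K j * 4 ^ j ≤ 9 ^ n := Nat.le_pow_clog (by norm_num) _
  have n2 : 9 ^ (n - 1) < LL K j * 4 ^ j := Nat.pow_pred_clog_lt_self (by norm_num)
    (lt_of_lt_of_le (Nat.one_lt_pow j0.ne' (by norm_num)) (Nat.le_mul_of_pos_left _ L0))
  obtain ⟨ν, k1, k2⟩ := upper P (t := tt K j) (by omega) t0 hφ (q := K + 1) (fun loc => by
    obtain ⟨V, k1, k2⟩ := qp loc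
    simpa [k2] using Samp.htest k1 fun _ => false) hl hg δ0 ht n
    (le_trans (by
      rw [n4, LL, mul_assoc 2, mul_assoc 2]
      exact Nat.mul_le_mul_right _ (Nat.le_mul_of_pos_right _ (by positivity))) n1)
    (le_trans (by simp only [Fintype.card_prod, Fintype.card_fin, Fintype.card_fun,
      Fintype.card_bool, n4, LL]; nlinarith [Nat.zero_le (2 * j * tt K j * ((K + 1) *
        ((2 * j + 1) * 2 ^ (2 * j))))]) n1)
  set e := (Fintype.equivFin (Ix (2 * j) (tt K j) (2 * j * (K + 1) + 2) (Fin (K + 1) × Cu (2 * j))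
    (Nd K (2 * j)))).symm
  refine ⟨_, fun x => FF P fun i => x (e.symm i), ⟨_, ?_, (k1.reindex e.symm).computes
    (e.symm (.inl (fun _ => false, fun _ => false))) fun x => k2 _⟩, fun r' hr' => ?_⟩
  · have a1 : n ≤ 2 * j + 1 := by
      have : LL K j * 4 ^ j ≤ 9 ^ (2 * j) := by
        rw [two_mul, pow_add]
        exact Nat.mul_le_mul (h4.trans (by gcongr; norm_num)) (by gcongr; norm_num)
      have := (Nat.pow_lt_pow_iff_right (by norm_num)).1 (n2.trans_le this)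
      omega
    have a2 : 3 ^ n ≤ 2 ^ j * (3 * LL K j) := by
      refine (Nat.pow_le_pow_iff_left two_ne_zero).1 ?_
      have : 9 ^ n ≤ 9 * 9 ^ (n - 1) := by
        rw [← pow_succ']; exact Nat.pow_le_pow_right (by norm_num) (by omega)
      rw [← pow_mul, mul_comm n, pow_mul, mul_pow, ← pow_mul 2, mul_comm j, ← n4]
      calc _ ≤ 9 * (LL K j * 4 ^ j) := this.trans (Nat.mul_le_mul_left _ n2.le)
        _ ≤ 9 * (LL K j * LL K j * 4 ^ j) := by gcongr; exact Nat.le_mul_self _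
        _ = _ := by ring
    rw [← mul_assoc (2 ^ j)]
    refine Nat.mul_le_mul a2 ?_
    unfold cost
    gcongr
  · have u1 : j / k * k ≤ j := Nat.div_mul_le_self _ _
    have u2 : j < (j / k + 1) * k := by
      rw [mul_comm]; exact Nat.lt_mul_div_succ _ (by omega)
    have u3 : 3 ≤ j / k := (Nat.le_div_iff_mul_le (by omega)).2 h1
    have u4 : j / k ≤ j := Nat.div_le_self _ _
    generalize j / k = u at *
    obtain ⟨v, rfl⟩ := Nat.exists_eq_add_of_le u4
    rw [Nat.add_sub_cancel_left, pow_add, n4]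
    have C0 : (0 : ℝ) ≤ CC K / M := by positivity
    refine lower P (by omega) t0 hφ hl hc hg δ0 ht hw (le_trans ?_ ((hD _ hφ).2 (Lam_phi (by
      rw [cN]; exact H2)))) rfl C0 (fun g hg => ((hD g hg.bdd).1 _ fun z hz => Lam_DT s0 cN.symm H2
        (τ := 2 ^ v) (one_le_pow₀ one_le_two) (by
          rw [← pow_mul, mul_comm, pow_mul]; norm_num) hg hz).trans ?_) (by positivity) ?_ ?_ e hr'
    · have : 4 * (6 * K / M ^ (K + 3)) ≤ δ := by
        rw [hδ, inv_pow, ← mul_div_assoc, div_le_iff₀ (by positivity), ← div_eq_inv_mul,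
          le_div_iff₀ (by positivity), pow_add, mul_comm]
        exact mul_le_mul (by gcongr) (by linarith [le_self_pow₀ M1 (show 3 ≠ 0 by omega)])
          (by positivity) (by positivity)
      simp only [P]
      linarith
    · have a1 : M ^ (K + 1) * (6 * K / M ^ (K + 3)) ≤ 6 * K / M := by
        rw [← mul_div_assoc, div_le_div_iff₀ (by positivity) (by positivity), mul_right_comm,
          mul_comm, ← pow_succ]
        exact mul_le_mul_of_nonneg_left (pow_le_pow_right₀ M1 (Nat.le_succ _)) (by positivity)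
      have a2 : (6 * K / M ^ (K + 3) : ℝ) ≤ 6 * K / M := by
        gcongr; exact le_self_pow₀ M1 (by omega)
      have a3 : ((2 : ℝ) ^ v) ^ (K + 1) * s / s ^ K ≤ 2 ^ (K + 1) / M := by
        rw [div_le_div_iff₀ (by positivity) (by positivity), hM, hs]
        simp only [← pow_mul, ← pow_add]
        refine pow_le_pow_right₀ one_le_two ?_
        obtain rfl : K = 4 * k - 1 := by omega
        obtain ⟨k, rfl⟩ := Nat.exists_eq_add_of_le' hk
        rw [show 4 * (k + 2) - 1 = 4 * k + 7 by omega]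
        nlinarith
      rw [← mul_assoc _ _ ((2 : ℝ) ^ v), mul_pow _ ((2 : ℝ) ^ v), CC]
      push_cast
      have c0 : (0 : ℝ) ≤ (4 * (2 * K + 2) * ((2 * K + 2) * 2 ^ (K + 1))) ^ (K + 1) := by positivity
      generalize (4 * (2 * K + 2) * ((2 * K + 2) * 2 ^ (K + 1)) : ℝ) ^ (K + 1) = c at c0
      have a4 := mul_le_mul_of_nonneg_left a3 c0
      have a5 : 2 * (c * (2 ^ v) ^ (K + 1)) * s / s ^ K + M ^ (K + 1) * (6 * K / M ^ (K + 3)) ≤
          2 * (c * (2 ^ (K + 1) / M)) + 6 * K / M := by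
        rw [show 2 * (c * (2 ^ v) ^ (K + 1)) * s / s ^ K = 2 * (c * ((2 ^ v) ^ (K + 1) * s / s ^ K))
          by ring]
        linarith
      refine (add_le_add (mul_le_mul (show 2 * δ ≤ 2 by linarith) a5 (by positivity) zero_le_two)
        (mul_le_mul_of_nonneg_left a2 zero_le_four)).trans_eq ?_
      ring
    · rw [← n4, pow_add]
      exact Nat.mul_le_mul_right _ (le_trans (by norm_num) (Nat.pow_le_pow_right (by norm_num) u3))
    · rw [← mul_div_assoc, div_le_div_iff₀ (by positivity) (by norm_num), one_mul, ← n4', mul_comm]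
      exact_mod_cast h5

theorem main (k : ℕ) (hk : 2 ≤ k) :
    ∃ (c C b : ℝ), 0 < c ∧ 0 < C ∧ 0 < b ∧ ∃ m₀ : ℕ, ∀ m : ℕ, m₀ ≤ m → (∃ j : ℕ, m = 4 ^ j) →
      ∃ (n : ℕ) (F : (Fin n → Bool) → Bool),
        (∃ q : ℕ, (q : ℝ) ≤ C * Real.sqrt m * Real.log m ^ b ∧ QuantumComputes F q) ∧
        (∀ r : ℕ, RandomizedComputes F r →
          c * (m : ℝ) ^ (2 - 1 / (k : ℝ)) / Real.log m ^ 2 ≤ r) := by
  obtain ⟨K, hK⟩ : ∃ K, K + 1 = 4 * k := ⟨4 * k - 1, by omega⟩
  have p1 : Pl (tt K) := by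
    unfold tt
    repeat' first | exact Pl.const _ | exact Pl.id | apply Pl.mul | apply Pl.add | apply Pl.pow
  have p2 : Pl (LL K) := by
    unfold LL
    repeat' first | exact Pl.const _ | exact Pl.id | exact p1 | apply Pl.mul | apply Pl.add
  obtain ⟨C, b, h⟩ : Pl fun j => 3 * LL K j * cost K j (2 * j + 1) := by
    unfold cost
    repeat' first | exact Pl.const _ | exact Pl.id | exact p1 | exact p2 | apply Pl.mul | apply Pl.add
  obtain ⟨j0, hj⟩ := eventually_atTop.1 ((eventually_ge_atTop (3 * k)).and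
    (((Pl.const 32).mul (Pl.id.mul (Pl.const (K + 4)))).ev.and ((Pl.const (24 * K)).ev.and
    (p2.ev.and ((Pl.const 10).mul ((((Pl.const 2).mul Pl.id).mul p1).mul (Pl.const (CC K)))).ev))))
  refine ⟨1 / 10, C + 1, (b + 1 : ℕ), by norm_num, by positivity, by positivity, 4 ^ j0, ?_⟩
  rintro _ hm ⟨j, rfl⟩
  obtain ⟨h1, h2, h3, h4, h5⟩ := hj j ((Nat.pow_le_pow_iff_right (by norm_num)).1 hm)
  obtain ⟨n, F, ⟨q, k1, k2⟩, k3⟩ := fixed hk hK h1 h2 h3 h4 h5
  have j1 : 1 ≤ j := by omega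
  have j1' : (1 : ℝ) ≤ j := by exact_mod_cast j1
  have l1 : (j : ℝ) ≤ Real.log ((4 ^ j : ℕ) : ℝ) := by
    push_cast
    rw [Real.log_pow]
    refine le_mul_of_one_le_right j.cast_nonneg ((Real.le_log_iff_exp_le (by norm_num)).2 ?_)
    linarith [Real.exp_one_lt_three]
  refine ⟨n, F, ⟨q, ?_, k2⟩, fun r hr => ?_⟩
  · have : √((4 ^ j : ℕ) : ℝ) = 2 ^ j := by
      rw [Real.sqrt_eq_iff_mul_self_eq (by positivity) (by positivity), ← mul_pow]; norm_num
    rw [this, Real.rpow_natCast]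
    have a1 : (q : ℝ) ≤ 2 ^ j * (C * j ^ b) := by
      exact_mod_cast k1.trans (Nat.mul_le_mul_left _ (h j j1))
    refine a1.trans ?_
    rw [mul_left_comm, mul_assoc]
    gcongr
    · linarith
    · exact (pow_le_pow_right₀ j1' b.le_succ).trans (by gcongr)
  · have a1 : (4 : ℝ) ^ (j + (j - j / k)) ≤ 10 * r := by exact_mod_cast k3 r hr
    have a2 : ((4 ^ j : ℕ) : ℝ) ^ (2 - 1 / (k : ℝ)) ≤ (4 : ℝ) ^ (j + (j - j / k)) := by
      push_cast
      rw [← Real.rpow_natCast, ← Real.rpow_mul (by norm_num), ← Real.rpow_natCast]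
      refine Real.rpow_le_rpow_of_exponent_le (by norm_num) ?_
      rw [Nat.cast_add, Nat.cast_sub (Nat.div_le_self _ _), mul_sub, mul_one_div]
      linarith [Nat.cast_div_le (α := ℝ) (m := j) (n := k)]
    refine (div_le_self (by positivity) (one_le_pow₀ (j1'.trans l1))).trans (by linarith)

end Crest.Agent.H5.QQ
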